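import Mathlib

/-!
Square-root bound for one-sided nonnegative combinations of subcube indicators.
-/

namespace Vale.Agent.P047

open Finset Real

variable {n : ℕ}

/-- sign of a bit -/
def sgn (b : Bool) : ℝ := if b then 1 else -1

lemma sgn_sq (b : Bool) : sgn b * sgn b = 1 := by cases b <;> simp [sgn]

lemma sum_prod (h : Fin n → Bool → ℝ) :
    ∑ x : Fin n → Bool, ∏ i, h i (x i) = ∏ i, (h i true + h i false) := by
  rw [← Fintype.prod_sum]
  exact Finset.prod_congr rfl fun i _ => Fintype.sum_bool _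

lemma cube_sum (D : Finset (Fin n)) (a : Fin n → Bool) (h : Fin n → Bool → ℝ) :
    ∑ x : Fin n → Bool, (if ∀ i ∈ D, x i = a i then ∏ i, h i (x i) else 0)
      = ∏ i, (if i ∈ D then h i (a i) else h i true + h i false) := by
  let g : Fin n → Bool → ℝ := fun i b => (if i ∈ D → b = a i then h i b else 0)
  have h1 : ∀ x : Fin n → Bool,
      (if ∀ i ∈ D, x i = a i then ∏ i, h i (x i) else 0) = ∏ i, g i (x i) := by
    intro x
    by_cases hx : ∀ i ∈ D, x i = a i
    · rw [if_pos hx]
      exact Finset.prod_congr rfl fun i _ => (if_pos (hx i)).symm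
    · rw [if_neg hx]
      push Not at hx
      obtain ⟨i, hi, hne⟩ := hx
      symm
      apply Finset.prod_eq_zero (mem_univ i)
      exact if_neg fun hh => hne (hh hi)
  rw [Finset.sum_congr rfl fun x _ => h1 x, sum_prod]
  refine Finset.prod_congr rfl fun i _ => ?_
  by_cases hi : i ∈ D
  · cases hb : a i <;> simp [g, hi, hb]
  · simp [g, hi]

lemma prod_if_card (D : Finset (Fin n)) (g : Fin n → ℝ) :
    ∏ i, (if i ∈ D then g i else 2) = (∏ i ∈ D, g i) * 2 ^ (n - D.card) := by
  rw [Finset.prod_ite, Finset.filter_univ_mem, Finset.prod_const]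
  congr 2
  rw [Finset.filter_not, Finset.filter_univ_mem, Finset.card_univ_sdiff]
  simp

lemma pow_split (D : Finset (Fin n)) : (2:ℝ) ^ (n - D.card) * 2 ^ D.card = 2 ^ n := by
  rw [← pow_add]
  congr 1
  have := D.card_le_univ
  simp at this
  omega

lemma cube_bias (D : Finset (Fin n)) (a : Fin n → Bool) (t : ℝ) (c : Fin n → ℝ) :
    (∑ x : Fin n → Bool, (if ∀ i ∈ D, x i = a i then ∏ i, (1 + t * c i * sgn (x i)) else 0))
        / 2 ^ n
      = (∏ i ∈ D, (1 + t * c i * sgn (a i))) / 2 ^ D.card := by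
  rw [cube_sum D a (fun i b => 1 + t * c i * sgn b)]
  have : ∀ i : Fin n, (1 + t * c i * sgn true) + (1 + t * c i * sgn false) = 2 := by
    intro i; simp [sgn]; ring
  simp only [this]
  rw [prod_if_card, ← pow_split D]
  field_simp

lemma cube_lin (D : Finset (Fin n)) (a : Fin n → Bool) (c : Fin n → ℝ) :
    (∑ x : Fin n → Bool, (if ∀ i ∈ D, x i = a i then ∑ k, c k * sgn (x k) else 0)) / 2 ^ n
      = (∑ i ∈ D, c i * sgn (a i)) / 2 ^ D.card := by
  have hk : ∀ k : Fin n,
      (∑ x : Fin n → Bool, (if ∀ i ∈ D, x i = a i then c k * sgn (x k) else 0))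
        = if k ∈ D then c k * sgn (a k) * 2 ^ (n - D.card) else 0 := by
    intro k
    have h1 : ∀ x : Fin n → Bool,
        c k * sgn (x k) = c k * ∏ i, (if i = k then sgn (x i) else 1) := by
      intro x; simp [Finset.prod_ite_eq']
    have h2 : (∑ x : Fin n → Bool, (if ∀ i ∈ D, x i = a i then c k * sgn (x k) else 0))
        = c k * ∑ x : Fin n → Bool,
          (if ∀ i ∈ D, x i = a i then ∏ i, (if i = k then sgn (x i) else 1) else 0) := by
      rw [Finset.mul_sum]
      refine Finset.sum_congr rfl fun x _ => ?_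
      rw [h1 x]; split <;> simp
    rw [h2, cube_sum D a (fun i b => if i = k then sgn b else 1)]
    by_cases hkD : k ∈ D
    · rw [if_pos hkD]
      have h3 : ∀ i : Fin n, (if i ∈ D then (if i = k then sgn (a i) else 1) else
          (if i = k then sgn true else 1) + (if i = k then sgn false else 1))
          = (if i ∈ D then (if i = k then sgn (a i) else 1) else (2:ℝ)) := by
        intro i
        by_cases hi : i ∈ D
        · simp [hi]
        · have : i ≠ k := fun e => hi (e ▸ hkD)
          simp [hi, this]; norm_num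
      rw [Finset.prod_congr rfl fun i _ => h3 i, prod_if_card,
        Finset.prod_ite_eq' D k (fun i => sgn (a i)), if_pos hkD]
      ring
    · rw [if_neg hkD, Finset.prod_eq_zero (mem_univ k)]
      · simp
      · simp [hkD, sgn]
  have h4 : (∑ x : Fin n → Bool, (if ∀ i ∈ D, x i = a i then ∑ k, c k * sgn (x k) else 0))
      = ∑ k, ∑ x : Fin n → Bool, (if ∀ i ∈ D, x i = a i then c k * sgn (x k) else 0) := by
    rw [Finset.sum_comm]
    refine Finset.sum_congr rfl fun x _ => ?_
    split <;> simp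
  rw [h4, Finset.sum_congr rfl fun k _ => hk k, Finset.sum_ite_mem, Finset.univ_inter,
    ← Finset.sum_mul, ← pow_split D]
  field_simp

/-- pointwise lower bound on the tilted weight of a subcube -/
lemma term_bound (D : Finset (Fin n)) (u : Fin n → ℝ) (hu : ∀ i, u i = 1 ∨ u i = -1)
    {t : ℝ} (ht : 0 < t) (ht1 : t < 1) (hS : 0 ≤ ∑ i ∈ D, u i) :
    exp (t * (∑ i ∈ D, u i) - D.card * (t ^ 2 / (2 * (1 - t ^ 2))))
      ≤ ∏ i ∈ D, (1 + t * u i) := by
  set lp := log (1 + t)
  set lm := log (1 - t)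
  have hpos : ∀ i, 0 < 1 + t * u i := by
    intro i; rcases hu i with h | h <;> rw [h] <;> linarith
  have hlog : ∀ i, log (1 + t * u i) = (lp + lm) / 2 + u i * ((lp - lm) / 2) := by
    intro i; rcases hu i with h | h <;> simp [h, lp, lm, sub_eq_add_neg] <;> ring
  have hprod : ∏ i ∈ D, (1 + t * u i)
      = exp ((D.card : ℝ) * ((lp + lm) / 2) + (∑ i ∈ D, u i) * ((lp - lm) / 2)) := by
    rw [← Finset.prod_congr rfl fun i _ => exp_log (hpos i), ← exp_sum]
    congr 1
    simp only [hlog, Finset.sum_add_distrib, Finset.sum_const, nsmul_eq_mul, Finset.sum_mul]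
  rw [hprod]
  apply exp_le_exp.mpr
  have hd : t ≤ (lp - lm) / 2 := by
    have h := Real.sum_range_le_log_div ht.le ht1 1
    rw [log_div (by linarith) (by linarith)] at h
    simp at h
    simp only [lp, lm]; linarith
  have hs : -(t ^ 2 / (2 * (1 - t ^ 2))) ≤ (lp + lm) / 2 := by
    have h2 : 0 < 1 - t ^ 2 := by nlinarith
    have h := Real.one_sub_inv_le_log_of_pos h2
    have h3 : lp + lm = log (1 - t ^ 2) := by
      simp only [lp, lm]
      rw [← log_mul (by linarith) (by linarith)]; ring_nf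
    have h4 : 1 - (1 - t ^ 2)⁻¹ = -(t ^ 2 / (1 - t ^ 2)) := by field_simp; ring
    have h5 : t ^ 2 / (2 * (1 - t ^ 2)) = t ^ 2 / (1 - t ^ 2) / 2 := by field_simp
    rw [h3, h5]; linarith
  have hc : (0:ℝ) ≤ D.card := Nat.cast_nonneg _
  nlinarith [mul_le_mul_of_nonneg_left hs hc, mul_le_mul_of_nonneg_left hd hS]

section main

variable {f : (Fin n → Bool) → ℝ} {m : ℕ} {w : Fin m → ℝ}
  {D : Fin m → Finset (Fin n)} {a : Fin m → Fin n → Bool} {σ : ℝ}

/-- total mass of the tilted combination is at most one -/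
lemma tilted_le_one (hf : ∀ x, f x = 1 ∨ f x = -1) (hσ : σ = 1 ∨ σ = -1)
    (hrep : ∀ x, (1 + σ * f x) / 2 = ∑ j, if ∀ i ∈ D j, x i = a j i then w j else 0)
    {t : ℝ} (ht : 0 < t) (ht1 : t < 1) (c : Fin n → ℝ) (hc : ∀ i, c i = 1 ∨ c i = -1) :
    ∑ j, w j * ((∏ i ∈ D j, (1 + t * c i * sgn (a j i))) / 2 ^ (D j).card) ≤ 1 := by
  have key : ∀ j, w j * ((∏ i ∈ D j, (1 + t * c i * sgn (a j i))) / 2 ^ (D j).card)
      = (∑ x : Fin n → Bool, (if ∀ i ∈ D j, x i = a j i then w j else 0) *
          ∏ i, (1 + t * c i * sgn (x i))) / 2 ^ n := by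
    intro j
    rw [← cube_bias, mul_div_assoc', Finset.mul_sum]
    congr 1
    refine Finset.sum_congr rfl fun x _ => ?_
    split <;> simp
  rw [Finset.sum_congr rfl fun j _ => key j, ← Finset.sum_div, Finset.sum_comm]
  rw [div_le_one (by positivity)]
  calc ∑ x : Fin n → Bool, ∑ j, (if ∀ i ∈ D j, x i = a j i then w j else 0) *
          ∏ i, (1 + t * c i * sgn (x i))
      ≤ ∑ x : Fin n → Bool, ∏ i, (1 + t * c i * sgn (x i)) := by
        refine Finset.sum_le_sum fun x _ => ?_
        rw [← Finset.sum_mul, ← hrep x]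
        refine mul_le_of_le_one_left ?_ ?_
        · refine Finset.prod_nonneg fun i _ => ?_
          rcases hc i with h | h <;> rw [h] <;> cases x i <;> simp [sgn] <;> linarith
        · rcases hf x with h | h <;> rcases hσ with h' | h' <;> simp [h, h']
    _ = 2 ^ n := by
        rw [sum_prod (fun i b => 1 + t * c i * sgn b)]
        have : ∀ i : Fin n, (1 + t * c i * sgn true) + (1 + t * c i * sgn false) = 2 := by
          intro i; simp [sgn]; ring
        simp [this]

lemma level_one_eq (hσ : σ = 1 ∨ σ = -1)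
    (hrep : ∀ x, (1 + σ * f x) / 2 = ∑ j, if ∀ i ∈ D j, x i = a j i then w j else 0)
    (c : Fin n → ℝ) :
    ∑ i, c i * ((∑ x : Fin n → Bool, f x * sgn (x i)) / 2 ^ n)
      = 2 * σ * ∑ j, w j * ((∑ i ∈ D j, c i * sgn (a j i)) / 2 ^ (D j).card) := by
  have hfx : ∀ x, f x = 2 * σ * (∑ j, if ∀ i ∈ D j, x i = a j i then w j else 0) - σ := by
    intro x; rw [← hrep x]; rcases hσ with h | h <;> rw [h] <;> ring
  have key : ∀ j, w j * ((∑ i ∈ D j, c i * sgn (a j i)) / 2 ^ (D j).card)
      = (∑ x : Fin n → Bool, (if ∀ i ∈ D j, x i = a j i then w j else 0) *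
          ∑ k, c k * sgn (x k)) / 2 ^ n := by
    intro j
    rw [← cube_lin, mul_div_assoc', Finset.mul_sum]
    congr 1
    refine Finset.sum_congr rfl fun x _ => ?_
    split <;> simp
  have hL : ∑ x : Fin n → Bool, ∑ k, c k * sgn (x k) = 0 := by
    rw [Finset.sum_comm]
    refine Finset.sum_eq_zero fun k _ => ?_
    have h := cube_sum (∅ : Finset (Fin n)) (fun _ => true)
      (fun i b => if i = k then sgn b else 1)
    simp [Finset.prod_ite_eq'] at h
    rw [← Finset.mul_sum, h, Finset.prod_eq_zero (mem_univ k)]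
    · simp
    · simp [sgn]
  calc ∑ i, c i * ((∑ x : Fin n → Bool, f x * sgn (x i)) / 2 ^ n)
      = (∑ x : Fin n → Bool, f x * ∑ k, c k * sgn (x k)) / 2 ^ n := by
        simp only [Finset.mul_sum, mul_div_assoc', Finset.sum_div]
        rw [Finset.sum_comm]
        refine Finset.sum_congr rfl fun x _ => Finset.sum_congr rfl fun i _ => ?_
        ring
    _ = (2 * σ * (∑ j, ∑ x : Fin n → Bool, (if ∀ i ∈ D j, x i = a j i then w j else 0) *
          ∑ k, c k * sgn (x k)) - σ * ∑ x : Fin n → Bool, ∑ k, c k * sgn (x k)) / 2 ^ n := by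
        rw [Finset.sum_comm (s := (Finset.univ : Finset (Fin m))), Finset.mul_sum, Finset.mul_sum,
          ← Finset.sum_sub_distrib]
        congr 1
        refine Finset.sum_congr rfl fun x _ => ?_
        rw [← Finset.sum_mul, hfx x]
        ring
    _ = _ := by
        rw [hL, mul_zero, sub_zero, Finset.sum_congr rfl fun j _ => key j, ← Finset.sum_div]
        ring

theorem junta_sqrt_bound (hf : ∀ x, f x = 1 ∨ f x = -1) (hσ : σ = 1 ∨ σ = -1)
    (hw : ∀ j, 0 ≤ w j)
    (hrep : ∀ x, (1 + σ * f x) / 2 = ∑ j, if ∀ i ∈ D j, x i = a j i then w j else 0) :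
    (∀ d : ℕ, 1 ≤ d → (∀ j, (D j).card ≤ d) →
        ∑ i, |(∑ x : Fin n → Bool, f x * sgn (x i)) / 2 ^ n| ≤ 2 * √((d + 1) / exp 1)) ∧
      ∑ i, |(∑ x : Fin n → Bool, f x * sgn (x i)) / 2 ^ n|
        ≤ √(8 * (exp 1 * (∑ j, w j * (D j).card / 2 ^ (D j).card) + 2)) / exp 1 := by
  set A := fun i => (∑ x : Fin n → Bool, f x * sgn (x i)) / 2 ^ n with hA
  set c : Fin n → ℝ := fun i => if 0 ≤ σ * A i then 1 else -1 with hcdef
  have hc : ∀ i, c i = 1 ∨ c i = -1 := by intro i; simp only [c]; split <;> simp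
  have hcabs : ∀ i, |A i| = σ * (c i * A i) := by
    intro i
    simp only [c]
    rcases hσ with h | h <;> subst h <;> split <;> rename_i hh <;> simp at hh ⊢
    · exact hh
    · linarith
    · exact hh
    · linarith
  set S := fun j => ∑ i ∈ D j, c i * sgn (a j i) with hS
  set μ := fun j => (1:ℝ) / 2 ^ (D j).card with hμ
  have hsum : ∑ i, |A i| = 2 * ∑ j, w j * μ j * S j := by
    rw [Finset.sum_congr rfl fun i _ => hcabs i, ← Finset.mul_sum, level_one_eq hσ hrep c]
    have : σ * σ = 1 := by rcases hσ with h | h <;> rw [h] <;> norm_num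
    rw [show ∀ s : ℝ, σ * (2 * σ * s) = 2 * (σ * σ) * s from fun s => by ring, this, mul_one]
    congr 1
    refine Finset.sum_congr rfl fun j _ => ?_
    simp only [μ, S]; ring
  have hu : ∀ j i, c i * sgn (a j i) = 1 ∨ c i * sgn (a j i) = -1 := by
    intro j i; rcases hc i with h | h <;> cases a j i <;> simp [h, sgn]
  have hμ0 : ∀ j, 0 ≤ w j * μ j := fun j => mul_nonneg (hw j) (by positivity)
  -- master inequality
  have master : ∀ t : ℝ, 0 < t → t < 1 → ∀ j,
      w j * μ j * exp (t * S j - (D j).card * (t ^ 2 / (2 * (1 - t ^ 2)))) * (if 0 ≤ S j then 1 else 0)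
        ≤ w j * ((∏ i ∈ D j, (1 + t * c i * sgn (a j i))) / 2 ^ (D j).card) := by
    intro t ht ht1 j
    have hpr : 0 ≤ ∏ i ∈ D j, (1 + t * c i * sgn (a j i)) := by
      refine Finset.prod_nonneg fun i _ => ?_
      rw [mul_assoc]; rcases hu j i with h | h <;> rw [h] <;> linarith
    by_cases hSj : 0 ≤ S j
    · rw [if_pos hSj, mul_one]
      have h := term_bound (D j) (fun i => c i * sgn (a j i)) (hu j) ht ht1 hSj
      simp only [← mul_assoc] at h
      have h2 := mul_le_mul_of_nonneg_left h (hμ0 j)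
      refine h2.trans (le_of_eq ?_)
      simp only [μ]; ring
    · rw [if_neg hSj, mul_zero]
      exact mul_nonneg (hw j) (div_nonneg hpr (by positivity))
  refine ⟨fun d hd hD => ?_, ?_⟩
  · set t : ℝ := 1 / √(d + 1) with htdef
    have hd1 : (1:ℝ) ≤ d := by exact_mod_cast hd
    have hsq : √((d:ℝ) + 1) ^ 2 = d + 1 := sq_sqrt (by linarith)
    have hs1 : 1 < √((d:ℝ) + 1) := by
      rw [lt_sqrt (by norm_num)]; linarith
    have ht : 0 < t := by positivity
    have ht1 : t < 1 := by rw [htdef, div_lt_one (by linarith)]; exact hs1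
    have ht2 : t ^ 2 = 1 / (d + 1) := by rw [htdef, div_pow, hsq, one_pow]
    have hy : (d:ℝ) * (t ^ 2 / (2 * (1 - t ^ 2))) = 1 / 2 := by
      rw [ht2]
      have : (d:ℝ) ≠ 0 := by linarith
      field_simp
      ring_nf
      field_simp
    have hy0 : 0 ≤ t ^ 2 / (2 * (1 - t ^ 2)) := by
      have : 0 < 1 - t ^ 2 := by nlinarith
      positivity
    have hterm : ∀ j, w j * μ j * (t * S j) * exp (1 / 2)
        ≤ w j * ((∏ i ∈ D j, (1 + t * c i * sgn (a j i))) / 2 ^ (D j).card) := by
      intro j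
      have h := master t ht ht1 j
      refine le_trans ?_ h
      by_cases hSj : 0 ≤ S j
      · rw [if_pos hSj, mul_one, mul_assoc (w j * μ j)]
        refine mul_le_mul_of_nonneg_left ?_ (hμ0 j)
        have h1 : t * S j ≤ exp (t * S j - 1) := by linarith [add_one_le_exp (t * S j - 1)]
        calc t * S j * exp (1 / 2) ≤ exp (t * S j - 1) * exp (1 / 2) := by gcongr
          _ ≤ _ := by
            rw [← exp_add]; apply exp_le_exp.mpr
            have : ((D j).card : ℝ) * (t ^ 2 / (2 * (1 - t ^ 2))) ≤ 1 / 2 := by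
              rw [← hy]; gcongr; exact hD j
            linarith
      · rw [if_neg hSj, mul_zero]
        have : t * S j ≤ 0 := mul_nonpos_of_nonneg_of_nonpos ht.le (le_of_not_ge hSj)
        exact mul_nonpos_of_nonpos_of_nonneg
          (mul_nonpos_of_nonneg_of_nonpos (hμ0 j) this) (exp_pos _).le
    have htot := (Finset.sum_le_sum fun j _ => hterm j).trans
      (tilted_le_one hf hσ hrep ht ht1 c hc)
    have h3 : (∑ j, w j * μ j * S j) * (t * exp (1 / 2)) ≤ 1 := by
      rw [Finset.sum_mul]
      refine le_trans (le_of_eq ?_) htot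
      exact Finset.sum_congr rfl fun j _ => by ring
    show ∑ i, |A i| ≤ _
    rw [hsum, sqrt_div (by linarith), ← exp_half]
    rw [← le_div_iff₀ (by positivity)] at h3
    refine le_trans (mul_le_mul_of_nonneg_left h3 (by norm_num)) (le_of_eq ?_)
    rw [htdef]; field_simp
  · set W := ∑ j, w j * ((D j).card : ℝ) / 2 ^ (D j).card with hW
    have hW0 : 0 ≤ W := Finset.sum_nonneg fun j _ =>
      div_nonneg (mul_nonneg (hw j) (Nat.cast_nonneg _)) (by positivity)
    set q : ℝ := exp 1 * W + 2 with hq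
    have hq2 : 2 ≤ q := by have := exp_pos 1; nlinarith
    rcases eq_or_lt_of_le hq2 with hq' | hq'
    · -- zero width
      have hW' : W = 0 := by
        have := exp_pos (1:ℝ)
        have h : exp 1 * W = 0 := by linarith
        exact (mul_eq_zero.mp h).resolve_left this.ne'
      have hz : ∀ j, w j * μ j * S j = 0 := by
        intro j
        have hnn : ∀ k ∈ (univ : Finset (Fin m)),
            0 ≤ w k * ((D k).card : ℝ) / 2 ^ (D k).card := fun k _ =>
          div_nonneg (mul_nonneg (hw k) (Nat.cast_nonneg _)) (by positivity)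
        have h := (Finset.sum_eq_zero_iff_of_nonneg hnn).mp hW' j (mem_univ j)
        have h2 : ((2:ℝ) ^ (D j).card) ≠ 0 := by positivity
        rcases mul_eq_zero.mp ((div_eq_zero_iff.mp h).resolve_right h2) with h | h
        · rw [h, zero_mul, zero_mul]
        · have hD0 : D j = ∅ := Finset.card_eq_zero.mp (Nat.cast_eq_zero.mp h)
          have : S j = 0 := by simp only [S, hD0, Finset.sum_empty]
          rw [this, mul_zero]
      show ∑ i, |A i| ≤ _
      rw [hsum, Finset.sum_eq_zero fun j _ => hz j, mul_zero]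
      positivity
    set t : ℝ := √2 / √q with htdef
    have hsq : √q ^ 2 = q := sq_sqrt (by linarith)
    have hs2 : √(2:ℝ) ^ 2 = 2 := sq_sqrt (by norm_num)
    have ht : 0 < t := by have : 0 < q := by linarith
                          positivity
    have ht2 : t ^ 2 = 2 / q := by rw [htdef, div_pow, hsq, hs2]
    have ht1 : t < 1 := by
      rw [htdef, div_lt_one (by positivity)]; exact sqrt_lt_sqrt (by norm_num) hq'
    set y : ℝ := t ^ 2 / (2 * (1 - t ^ 2)) with hy
    have hy0 : 0 ≤ y := by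
      have : 0 < 1 - t ^ 2 := by nlinarith
      positivity
    have hterm : ∀ j, exp 1 * (w j * μ j * (t * S j - (D j).card * y))
        ≤ w j * ((∏ i ∈ D j, (1 + t * c i * sgn (a j i))) / 2 ^ (D j).card) := by
      intro j
      have h := master t ht ht1 j
      refine le_trans ?_ h
      rw [mul_left_comm]
      by_cases hSj : 0 ≤ S j
      · rw [if_pos hSj, mul_one]
        refine mul_le_mul_of_nonneg_left ?_ (hμ0 j)
        set z := t * S j - (D j).card * y
        have h1 : z ≤ exp (z - 1) := by linarith [add_one_le_exp (z - 1)]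
        calc exp 1 * z ≤ exp 1 * exp (z - 1) := by gcongr
          _ = exp z := by rw [← exp_add]; ring_nf
      · rw [if_neg hSj, mul_zero]
        refine mul_nonpos_of_nonneg_of_nonpos (hμ0 j) ?_
        refine mul_nonpos_of_nonneg_of_nonpos (exp_pos _).le ?_
        have : t * S j ≤ 0 := mul_nonpos_of_nonneg_of_nonpos ht.le (le_of_not_ge hSj)
        have : 0 ≤ ((D j).card : ℝ) * y := by positivity
        linarith
    have htot := (Finset.sum_le_sum fun j _ => hterm j).trans
      (tilted_le_one hf hσ hrep ht ht1 c hc)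
    have h3 : exp 1 * (t * (∑ j, w j * μ j * S j) - y * W) ≤ 1 := by
      refine le_trans (le_of_eq ?_) htot
      rw [← Finset.mul_sum]
      congr 1
      simp only [W, mul_sub, Finset.sum_sub_distrib, Finset.mul_sum]
      congr 1 <;> exact Finset.sum_congr rfl fun j _ => by simp only [μ]; ring
    show ∑ i, |A i| ≤ √(8 * q) / exp 1
    rw [hsum]
    have hyW : exp 1 * (y * W) = 1 := by
      rw [hy, ht2]
      have hq0 : q ≠ 0 := by linarith
      have : q - 2 ≠ 0 := by linarith
      field_simp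
      rw [hq]; ring
    have h4 : exp 1 * t * (∑ j, w j * μ j * S j) ≤ 2 := by nlinarith
    rw [le_div_iff₀ (exp_pos 1)]
    have h5 : √(8 * q) * t = 4 := by
      rw [htdef, sqrt_mul (by norm_num), show (8:ℝ) = 2 ^ 2 * 2 by norm_num,
        sqrt_mul (by norm_num), sqrt_sq (by norm_num)]
      have : √q ≠ 0 := by positivity
      field_simp
      rw [hs2]; norm_num
    by_contra hlt
    push Not at hlt
    nlinarith [mul_lt_mul_of_pos_left hlt ht]

end main

end Vale.Agent.P047
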