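import Mathlib

/-!
A linear bound with constant below one for the level-one Fourier mass of a Boolean function of
bounded degree: the biased means satisfy `(1 - t²) |h'| ≤ d (1 - h²)`, which keeps them away
from the sign pattern of the extremal Chebyshev polynomial.
-/

namespace Vale.Agent.P047.LinBound

open Finset Real

variable {n : ℕ}

/-- a bit as a sign -/
def sg (b : Bool) : ℝ := if b then 1 else -1

lemma sg_sq (b : Bool) : sg b ^ 2 = 1 := by cases b <;> simp [sg]

lemma sum_prod (g : Fin n → Bool → ℝ) :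
    ∑ x : Fin n → Bool, ∏ i, g i (x i) = ∏ i, (g i true + g i false) := by
  rw [← Fintype.prod_sum]
  exact Finset.prod_congr rfl fun i _ => Fintype.sum_bool _

/-- Fourier coefficient -/
noncomputable def co (f : (Fin n → Bool) → ℝ) (S : Finset (Fin n)) : ℝ :=
  (∑ x, f x * ∏ i ∈ S, sg (x i)) / 2 ^ n

/-- product weights with bias `b` -/
noncomputable def wt (b : Fin n → ℝ) (x : Fin n → Bool) : ℝ :=
  ∏ i, (1 + b i * sg (x i)) / 2

/-- biased expectation -/
noncomputable def ev (b : Fin n → ℝ) (f : (Fin n → Bool) → ℝ) : ℝ :=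
  ∑ x, wt b x * f x

lemma co_expand (f : (Fin n → Bool) → ℝ) (x : Fin n → Bool) :
    f x = ∑ S, co f S * ∏ i ∈ S, sg (x i) := by
  have hk : ∀ y : Fin n → Bool,
      (∑ S : Finset (Fin n), (∏ i ∈ S, sg (y i)) * ∏ i ∈ S, sg (x i))
        = if y = x then (2 : ℝ) ^ n else 0 := by
    intro y
    have h1 : (∑ S : Finset (Fin n), (∏ i ∈ S, sg (y i)) * ∏ i ∈ S, sg (x i))
        = ∏ i : Fin n, (1 + sg (y i) * sg (x i)) := by
      rw [Finset.prod_one_add, Finset.powerset_univ]
      exact Finset.sum_congr rfl fun S _ => Finset.prod_mul_distrib.symm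
    rw [h1]
    split_ifs with h
    · subst h
      have : ∀ i : Fin n, 1 + sg (y i) * sg (y i) = 2 := by
        intro i; have := sg_sq (y i); nlinarith
      simp [this]
    · obtain ⟨i, hi⟩ := Function.ne_iff.mp h
      apply Finset.prod_eq_zero (mem_univ i)
      cases hy : y i <;> cases hx : x i <;> simp_all [sg]
  unfold co
  simp only [div_mul_eq_mul_div, Finset.sum_mul]
  rw [← Finset.sum_div, Finset.sum_comm]
  have h2 : ∀ y : Fin n → Bool,
      (∑ S : Finset (Fin n), f y * (∏ i ∈ S, sg (y i)) * ∏ i ∈ S, sg (x i))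
        = if y = x then f y * 2 ^ n else 0 := by
    intro y
    have h3 := hk y
    simp only [mul_assoc, ← Finset.mul_sum]
    rw [h3]
    split_ifs <;> simp
  rw [Finset.sum_congr rfl fun y _ => h2 y, Finset.sum_ite_eq']
  simp

/-- expansion coefficients in the variables `σ x - b` -/
noncomputable def bc (b : Fin n → ℝ) (f : (Fin n → Bool) → ℝ) (T : Finset (Fin n)) : ℝ :=
  ∑ S, if T ⊆ S then co f S * ∏ i ∈ S \ T, b i else 0

lemma bc_expand (b : Fin n → ℝ) (f : (Fin n → Bool) → ℝ) (x : Fin n → Bool) :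
    f x = ∑ T, bc b f T * ∏ i ∈ T, (sg (x i) - b i) := by
  rw [co_expand f x]
  unfold bc
  simp only [Finset.sum_mul, ite_mul, zero_mul]
  rw [Finset.sum_comm]
  refine Finset.sum_congr rfl fun S _ => ?_
  have hs : ∏ i ∈ S, sg (x i) = ∏ i ∈ S, ((sg (x i) - b i) + b i) :=
    Finset.prod_congr rfl fun i _ => by ring
  rw [hs, Finset.prod_add, Finset.mul_sum]
  rw [← Finset.sum_filter]
  refine Finset.sum_congr ?_ fun T _ => by ring
  ext T; simp

lemma bc_zero_of_deg {b : Fin n → ℝ} {f : (Fin n → Bool) → ℝ} {d : ℕ}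
    (hdeg : ∀ S : Finset (Fin n), d < S.card → co f S = 0) {T : Finset (Fin n)}
    (hT : d < T.card) : bc b f T = 0 := by
  unfold bc
  refine Finset.sum_eq_zero fun S _ => ?_
  split_ifs with h
  · rw [hdeg S (lt_of_lt_of_le hT (Finset.card_le_card h))]; simp
  · rfl

lemma ev_orth (b : Fin n → ℝ) (S T : Finset (Fin n)) :
    ev b (fun x => (∏ i ∈ S, (sg (x i) - b i)) * ∏ i ∈ T, (sg (x i) - b i))
      = if S = T then ∏ i ∈ S, (1 - b i ^ 2) else 0 := by
  unfold ev wt
  have h1 : ∀ x : Fin n → Bool,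
      (∏ i, (1 + b i * sg (x i)) / 2) *
        ((∏ i ∈ S, (sg (x i) - b i)) * ∏ i ∈ T, (sg (x i) - b i))
      = ∏ i, ((1 + b i * sg (x i)) / 2 * ((if i ∈ S then sg (x i) - b i else 1) *
          (if i ∈ T then sg (x i) - b i else 1))) := by
    intro x
    rw [Finset.prod_mul_distrib (s := univ), Finset.prod_mul_distrib (s := univ)]
    simp [Finset.prod_ite_mem]
  simp only [h1]
  rw [sum_prod (fun i c => (1 + b i * sg c) / 2 * ((if i ∈ S then sg c - b i else 1) *
          (if i ∈ T then sg c - b i else 1)))]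
  have h2 : ∀ i : Fin n,
      (1 + b i * sg true) / 2 * ((if i ∈ S then sg true - b i else 1) *
          (if i ∈ T then sg true - b i else 1)) +
      (1 + b i * sg false) / 2 * ((if i ∈ S then sg false - b i else 1) *
          (if i ∈ T then sg false - b i else 1))
      = if i ∈ S then (if i ∈ T then 1 - b i ^ 2 else 0) else (if i ∈ T then 0 else 1) := by
    intro i
    by_cases hS : i ∈ S <;> by_cases hT : i ∈ T <;> simp [hS, hT, sg] <;> ring
  rw [Finset.prod_congr rfl fun i _ => h2 i]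
  split_ifs with h
  · subst h
    rw [← Finset.prod_subset (subset_univ S)]
    · exact Finset.prod_congr rfl fun i hi => by simp [hi]
    · intro i _ hi; simp [hi]
  · obtain ⟨i, hi⟩ : ∃ i, ¬ (i ∈ S ↔ i ∈ T) := by
      by_contra hc
      push Not at hc
      exact h (Finset.ext hc)
    apply Finset.prod_eq_zero (mem_univ i)
    by_cases hS : i ∈ S <;> by_cases hT : i ∈ T <;> simp_all

lemma ev_quad (b : Fin n → ℝ) (a : Finset (Fin n) → ℝ) :
    ev b (fun x => (∑ T, a T * ∏ i ∈ T, (sg (x i) - b i)) ^ 2)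
      = ∑ T, a T ^ 2 * ∏ i ∈ T, (1 - b i ^ 2) := by
  have h1 : ev b (fun x => (∑ T, a T * ∏ i ∈ T, (sg (x i) - b i)) ^ 2)
      = ∑ S, ∑ T, a S * a T *
          ev b (fun x => (∏ i ∈ S, (sg (x i) - b i)) * ∏ i ∈ T, (sg (x i) - b i)) := by
    unfold ev
    simp only [pow_two, Finset.sum_mul, Finset.mul_sum]
    rw [Finset.sum_comm]
    refine Finset.sum_congr rfl fun S _ => ?_
    rw [Finset.sum_comm]
    refine Finset.sum_congr rfl fun T _ => ?_
    refine Finset.sum_congr rfl fun x _ => ?_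
    ring
  rw [h1]
  refine Finset.sum_congr rfl fun S _ => ?_
  simp [ev_orth, pow_two]

lemma ev_lin (b : Fin n → ℝ) (a : Finset (Fin n) → ℝ) :
    ev b (fun x => ∑ T, a T * ∏ i ∈ T, (sg (x i) - b i)) = a ∅ := by
  have h1 : ev b (fun x => ∑ T, a T * ∏ i ∈ T, (sg (x i) - b i))
      = ∑ T, a T * ev b (fun x => (∏ i ∈ (∅ : Finset (Fin n)), (sg (x i) - b i)) *
          ∏ i ∈ T, (sg (x i) - b i)) := by
    unfold ev
    simp only [Finset.prod_empty, one_mul, Finset.mul_sum]
    rw [Finset.sum_comm]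
    refine Finset.sum_congr rfl fun T _ => Finset.sum_congr rfl fun x _ => ?_
    ring
  rw [h1]
  simp only [ev_orth]
  simp

lemma wt_pos {b : Fin n → ℝ} (hb : ∀ i, |b i| < 1) (x : Fin n → Bool) : 0 < wt b x := by
  unfold wt
  refine Finset.prod_pos fun i _ => ?_
  have := abs_lt.mp (hb i)
  cases x i <;> simp [sg] <;> linarith

lemma wt_sum (b : Fin n → ℝ) : ∑ x, wt b x = 1 := by
  unfold wt
  rw [sum_prod (fun i c => (1 + b i * sg c) / 2)]
  refine Finset.prod_eq_one fun i _ => ?_
  simp [sg]; ring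

lemma wt_nonneg {b : Fin n → ℝ} (hb : ∀ i, |b i| ≤ 1) (x : Fin n → Bool) : 0 ≤ wt b x := by
  unfold wt
  refine Finset.prod_nonneg fun i _ => ?_
  have := abs_le.mp (hb i)
  cases x i <;> simp [sg] <;> linarith

section influence

variable {f : (Fin n → Bool) → ℝ} (hf : ∀ x, f x = 1 ∨ f x = -1)

include hf in
/-- biased Poincaré-type inequality for the level one coefficients -/
lemma level_one_le {b : Fin n → ℝ} (hb : ∀ i, |b i| < 1) {d : ℕ}
    (hdeg : ∀ S : Finset (Fin n), d < S.card → co f S = 0) :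
    ∑ i, (1 - b i ^ 2) * |bc b f {i}| ≤ d * (1 - bc b f ∅ ^ 2) := by
  classical
  set a := bc b f with ha
  set V : Finset (Fin n) → ℝ := fun T => ∏ i ∈ T, (1 - b i ^ 2) with hV
  have hv : ∀ i, 0 < 1 - b i ^ 2 := fun i => by
    have := abs_lt.mp (hb i); nlinarith
  have hVpos : ∀ T, 0 ≤ a T ^ 2 * V T := fun T =>
    mul_nonneg (sq_nonneg _) (Finset.prod_nonneg fun i _ => (hv i).le)
  -- the derivative in direction `i` takes values in `{-1, 0, 1}`
  have hD : ∀ i, (1 - b i ^ 2) * |a {i}| ≤ ∑ T, if i ∈ T then a T ^ 2 * V T else 0 := by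
    intro i
    set c : Finset (Fin n) → ℝ := fun U => if i ∈ U then 0 else a (insert i U) with hc
    have hval : ∀ x : Fin n → Bool,
        (f (Function.update x i true) - f (Function.update x i false)) / 2
          = ∑ U, c U * ∏ j ∈ U, (sg (x j) - b j) := by
      intro x
      rw [bc_expand b f (Function.update x i true), bc_expand b f (Function.update x i false),
        ← Finset.sum_sub_distrib, Finset.sum_div]
      have h1 : ∀ T : Finset (Fin n),
          (bc b f T * ∏ j ∈ T, (sg (Function.update x i true j) - b j) -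
            bc b f T * ∏ j ∈ T, (sg (Function.update x i false j) - b j)) / 2
          = if i ∈ T then a T * ∏ j ∈ T.erase i, (sg (x j) - b j) else 0 := by
        intro T
        by_cases hi : i ∈ T
        · have h2 : ∀ v : Bool, ∏ j ∈ T, (sg (Function.update x i v j) - b j)
              = (sg v - b i) * ∏ j ∈ T.erase i, (sg (x j) - b j) := by
            intro v
            rw [← Finset.mul_prod_erase T _ hi, Function.update_self]
            congr 1
            refine Finset.prod_congr rfl fun j hj => ?_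
            rw [Function.update_of_ne (Finset.ne_of_mem_erase hj)]
          rw [h2, h2, if_pos hi]
          simp [sg, ha]; ring
        · have h2 : ∀ v : Bool, ∏ j ∈ T, (sg (Function.update x i v j) - b j)
              = ∏ j ∈ T, (sg (x j) - b j) := fun v =>
            Finset.prod_congr rfl fun j hj => by
              rw [Function.update_of_ne (fun e => hi (by subst e; exact hj))]
          rw [h2, h2, if_neg hi]; simp
      rw [Finset.sum_congr rfl fun T _ => h1 T]
      rw [← Finset.sum_filter]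
      simp only [hc, ite_mul, zero_mul]
      rw [Finset.sum_ite, Finset.sum_const_zero, zero_add]
      refine Finset.sum_nbij' (fun T => T.erase i) (fun U => insert i U) ?_ ?_ ?_ ?_ ?_
      · intro T hT; simp
      · intro U hU; simp
      · intro T hT; simp at hT; exact Finset.insert_erase hT
      · intro U hU; simp at hU; exact Finset.erase_insert hU
      · intro T hT
        simp at hT
        rw [Finset.insert_erase hT]
    have h01 : ∀ x : Fin n → Bool,
        |(f (Function.update x i true) - f (Function.update x i false)) / 2|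
          = ((f (Function.update x i true) - f (Function.update x i false)) / 2) ^ 2 := by
      intro x
      rcases hf (Function.update x i true) with h | h <;>
        rcases hf (Function.update x i false) with h' | h' <;> rw [h, h'] <;> norm_num
    have hE1 : |a {i}| ≤ ∑ U, c U ^ 2 * V U := by
      have e1 : a {i} = ev b (fun x => ∑ U, c U * ∏ j ∈ U, (sg (x j) - b j)) := by
        rw [ev_lin]; simp [hc]
      rw [e1, ← ev_quad]
      unfold ev
      refine (Finset.abs_sum_le_sum_abs _ _).trans (le_of_eq ?_)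
      refine Finset.sum_congr rfl fun x _ => ?_
      rw [abs_mul, abs_of_pos (wt_pos hb x)]
      show wt b x * |∑ U, c U * ∏ j ∈ U, (sg (x j) - b j)|
        = wt b x * (∑ U, c U * ∏ j ∈ U, (sg (x j) - b j)) ^ 2
      rw [← hval, h01]
    refine (mul_le_mul_of_nonneg_left hE1 (hv i).le).trans (le_of_eq ?_)
    rw [Finset.mul_sum, ← Finset.sum_filter]
    simp only [hc, ite_pow, ite_mul, mul_ite]
    rw [Finset.sum_ite]
    simp only [zero_pow two_ne_zero, zero_mul, mul_zero, Finset.sum_const_zero, zero_add]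
    refine Finset.sum_nbij' (fun U => insert i U) (fun T => T.erase i) ?_ ?_ ?_ ?_ ?_
    · intro U hU; simp
    · intro T hT; simp
    · intro U hU; simp at hU; exact Finset.erase_insert hU
    · intro T hT; simp at hT; exact Finset.insert_erase hT
    · intro U hU
      simp at hU
      simp only [hV]
      rw [Finset.prod_insert hU]
      ring
  have htot : ∑ T, a T ^ 2 * V T = 1 := by
    rw [hV, ← ev_quad b a]
    unfold ev
    rw [← wt_sum b]
    refine Finset.sum_congr rfl fun x _ => ?_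
    show wt b x * _ ^ 2 = _
    rw [ha, ← bc_expand b f x]
    rcases hf x with h | h <;> rw [h] <;> simp
  calc ∑ i, (1 - b i ^ 2) * |a {i}|
      ≤ ∑ i, ∑ T, if i ∈ T then a T ^ 2 * V T else 0 := Finset.sum_le_sum fun i _ => hD i
    _ = ∑ T, (T.card : ℝ) * (a T ^ 2 * V T) := by
        rw [Finset.sum_comm]
        refine Finset.sum_congr rfl fun T _ => ?_
        rw [Finset.sum_ite_mem, Finset.univ_inter, Finset.sum_const, nsmul_eq_mul]
    _ ≤ ∑ T, (d : ℝ) * (if T = ∅ then 0 else a T ^ 2 * V T) := by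
        refine Finset.sum_le_sum fun T _ => ?_
        by_cases hT : T = ∅
        · simp [hT]
        · rw [if_neg hT]
          by_cases hcard : T.card ≤ d
          · exact mul_le_mul_of_nonneg_right (by exact_mod_cast hcard) (hVpos T)
          · rw [ha, bc_zero_of_deg hdeg (by omega)]; simp
    _ = (d : ℝ) * (1 - a ∅ ^ 2) := by
        rw [← Finset.mul_sum, Finset.sum_ite, Finset.sum_const_zero, zero_add,
          Finset.filter_ne' univ ∅, Finset.sum_erase_eq_sub (mem_univ _), htot]
        simp [hV]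

end influence

/-- the biased mean along the direction `u` -/
noncomputable def hh (f : (Fin n → Bool) → ℝ) (u : Fin n → ℝ) (t : ℝ) : ℝ :=
  ∑ S, co f S * (∏ i ∈ S, u i) * t ^ S.card

lemma hh_eq_bc (f : (Fin n → Bool) → ℝ) (u : Fin n → ℝ) (t : ℝ) :
    hh f u t = bc (fun i => t * u i) f ∅ := by
  unfold hh bc
  refine Finset.sum_congr rfl fun S _ => ?_
  simp [Finset.prod_mul_distrib, Finset.prod_const]
  ring

lemma hh_deriv (f : (Fin n → Bool) → ℝ) (u : Fin n → ℝ) (t : ℝ) :
    HasDerivAt (hh f u) (∑ i, u i * bc (fun j => t * u j) f {i}) t := by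
  classical
  have h1 : HasDerivAt (hh f u)
      (∑ S, co f S * (∏ i ∈ S, u i) * ((S.card : ℝ) * t ^ (S.card - 1))) t := by
    unfold hh
    exact HasDerivAt.fun_sum fun S _ => (hasDerivAt_pow S.card t).const_mul _
  convert h1 using 1
  simp only [bc, Finset.mul_sum, mul_ite, mul_zero]
  rw [Finset.sum_comm]
  refine Finset.sum_congr rfl fun S _ => ?_
  have : ∀ i ∈ S, u i * (co f S * ∏ j ∈ S \ {i}, t * u j)
      = co f S * (∏ j ∈ S, u j) * t ^ (S.card - 1) := by
    intro i hi
    rw [Finset.sdiff_singleton_eq_erase, Finset.prod_mul_distrib, Finset.prod_const,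
      Finset.card_erase_of_mem hi, ← Finset.mul_prod_erase S u hi]
    ring
  simp only [Finset.singleton_subset_iff]
  rw [Finset.sum_ite_mem, Finset.univ_inter, Finset.sum_congr rfl this, Finset.sum_const,
    nsmul_eq_mul]
  ring

variable {f : (Fin n → Bool) → ℝ} {u : Fin n → ℝ} {d : ℕ}

lemma hh_eq_ev (t : ℝ) : hh f u t = ev (fun i => t * u i) f := by
  rw [hh_eq_bc]
  conv_rhs => rw [show f = fun x => ∑ T, bc (fun i => t * u i) f T *
      ∏ i ∈ T, (sg (x i) - (fun i => t * u i) i) from funext (bc_expand _ f)]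
  rw [ev_lin]

lemma hh_abs_le (hf : ∀ x, f x = 1 ∨ f x = -1) (hu : ∀ i, u i = 1 ∨ u i = -1) {t : ℝ}
    (ht : |t| ≤ 1) : |hh f u t| ≤ 1 := by
  rw [hh_eq_ev]
  have hb : ∀ i, |t * u i| ≤ 1 := fun i => by
    rcases hu i with h | h <;> simp [h, ht]
  unfold ev
  refine (Finset.abs_sum_le_sum_abs _ _).trans ?_
  rw [← wt_sum (fun i => t * u i)]
  refine Finset.sum_le_sum fun x _ => ?_
  rcases hf x with h | h <;> simp [h, abs_of_nonneg (wt_nonneg hb x)]

lemma hh_abs_lt (hf : ∀ x, f x = 1 ∨ f x = -1) (hu : ∀ i, u i = 1 ∨ u i = -1)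
    {x y : Fin n → Bool} (hxy : f x ≠ f y) {t : ℝ} (ht : |t| < 1) : |hh f u t| < 1 := by
  rw [hh_eq_ev]
  have hb : ∀ i, |t * u i| < 1 := fun i => by
    rcases hu i with h | h <;> simp [h, ht]
  obtain ⟨p, q, hp, hq⟩ : ∃ p q, f p = 1 ∧ f q = -1 := by
    rcases hf x with h | h <;> rcases hf y with h' | h'
    · exact absurd (h.trans h'.symm) hxy
    · exact ⟨x, y, h, h'⟩
    · exact ⟨y, x, h', h⟩
    · exact absurd (h.trans h'.symm) hxy
  have hle : ∀ z, f z ≤ 1 ∧ -1 ≤ f z := fun z => by rcases hf z with h | h <;> rw [h] <;> norm_num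
  unfold ev
  rw [abs_lt, ← wt_sum (fun i => t * u i), ← Finset.sum_neg_distrib]
  constructor
  · exact Finset.sum_lt_sum (fun z _ => by nlinarith [wt_pos hb z, hle z])
      ⟨p, mem_univ _, by rw [hp]; nlinarith [wt_pos hb p]⟩
  · exact Finset.sum_lt_sum (fun z _ => by nlinarith [wt_pos hb z, hle z])
      ⟨q, mem_univ _, by rw [hq]; nlinarith [wt_pos hb q]⟩

lemma hh_diff_le (hf : ∀ x, f x = 1 ∨ f x = -1) (hu : ∀ i, u i = 1 ∨ u i = -1)
    (hdeg : ∀ S : Finset (Fin n), d < S.card → co f S = 0)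
    {τ : ℝ} (hτ0 : 0 ≤ τ) (hτ : τ < 1) :
    hh f u τ - hh f u (-τ)
      ≤ 2 * ((((1 + τ) / (1 - τ)) ^ d - 1) / (((1 + τ) / (1 - τ)) ^ d + 1)) := by
  set R := ((1 + τ) / (1 - τ)) ^ d with hR
  have hR1 : 1 ≤ R := one_le_pow₀ (by rw [le_div_iff₀ (by linarith)]; linarith)
  by_cases hc : ∀ x y, f x = f y
  · have hconst : ∀ t, hh f u t = f (fun _ => true) := by
      intro t
      rw [hh_eq_ev]
      unfold ev
      rw [Finset.sum_congr rfl fun x _ => by rw [hc x (fun _ => true)], ← Finset.sum_mul, wt_sum,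
        one_mul]
    rw [hconst, hconst, sub_self]
    exact mul_nonneg zero_le_two (div_nonneg (by linarith) (by linarith))
  push Not at hc
  obtain ⟨x, y, hxy⟩ := hc
  set φ : ℝ → ℝ := fun t => (1 + hh f u t) * (1 - t) ^ d / ((1 - hh f u t) * (1 + t) ^ d) with hφ
  have hlt : ∀ t, |t| < 1 → |hh f u t| < 1 := fun t ht => hh_abs_lt hf hu hxy ht
  have hder : ∀ t ∈ Set.Ioo (-1 : ℝ) 1, ∃ v ≤ 0, HasDerivAt φ v t := by
    intro t ht
    have ht' : |t| < 1 := abs_lt.mpr ht
    obtain ⟨hl, hu'⟩ := abs_lt.mp (hlt t ht')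
    set h' := ∑ i, u i * bc (fun j => t * u j) f {i} with hh'
    have hsq : ∀ i, (t * u i) ^ 2 = t ^ 2 := fun i => by
      rcases hu i with h | h <;> rw [h] <;> ring
    have hb : ∀ i, |t * u i| < 1 := fun i => by
      rcases hu i with h | h <;> simp [h, ht']
    have hkey : (1 - t ^ 2) * h' ≤ d * (1 - hh f u t ^ 2) := by
      rw [hh_eq_bc]
      refine le_trans ?_ (level_one_le hf hb hdeg)
      rw [hh', Finset.mul_sum]
      refine Finset.sum_le_sum fun i _ => ?_
      rw [hsq]
      refine mul_le_mul_of_nonneg_left ?_ (by nlinarith [ht.1, ht.2])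
      rcases hu i with h | h <;> simp [h, le_abs_self, neg_le_abs]
    have hp1 : HasDerivAt (fun s : ℝ => (1 - s) ^ d) ((d : ℝ) * (1 - t) ^ (d - 1) * (-1)) t :=
      ((hasDerivAt_id t).const_sub 1).pow d
    have hp2 : HasDerivAt (fun s : ℝ => (1 + s) ^ d) ((d : ℝ) * (1 + t) ^ (d - 1) * 1) t :=
      ((hasDerivAt_id t).const_add 1).pow d
    have hne : (1 - hh f u t) * (1 + t) ^ d ≠ 0 :=
      mul_ne_zero (by linarith) (pow_ne_zero _ (by linarith [ht.1]))
    refine ⟨_, ?_, (((hh_deriv f u t).const_add 1).mul hp1).div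
      (((hh_deriv f u t).const_sub 1).mul hp2) hne⟩
    apply div_nonpos_of_nonpos_of_nonneg _ (sq_nonneg _)
    simp only [← hh', Pi.mul_apply]
    rcases Nat.eq_zero_or_pos d with hd | hd
    · subst hd
      simp only [pow_zero, Nat.cast_zero, zero_mul, mul_zero, mul_one, add_zero] at hkey ⊢
      have h0 : h' ≤ 0 := by
        by_contra hc
        nlinarith [mul_pos (show (0 : ℝ) < 1 - t ^ 2 by nlinarith [ht.1, ht.2]) (not_le.mp hc)]
      nlinarith
    obtain ⟨e, rfl⟩ : ∃ e, d = e + 1 := ⟨d - 1, by omega⟩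
    simp only [Nat.add_sub_cancel, pow_succ]
    have hpos : 0 ≤ (1 - t) ^ e * (1 + t) ^ e :=
      mul_nonneg (pow_nonneg (by linarith [ht.2]) _) (pow_nonneg (by linarith [ht.1]) _)
    push_cast at hkey ⊢
    nlinarith [mul_nonneg hpos (sub_nonneg.mpr hkey)]
  have hanti : AntitoneOn φ (Set.Icc (-τ) τ) := by
    apply antitoneOn_of_deriv_nonpos (convex_Icc _ _)
    · intro t ht
      obtain ⟨v, _, hv⟩ := hder t ⟨by linarith [ht.1], by linarith [ht.2]⟩
      exact hv.continuousAt.continuousWithinAt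
    · intro t ht
      rw [interior_Icc] at ht
      obtain ⟨v, _, hv⟩ := hder t ⟨by linarith [ht.1], by linarith [ht.2]⟩
      exact hv.differentiableAt.differentiableWithinAt
    · intro t ht
      rw [interior_Icc] at ht
      obtain ⟨v, hv0, hv⟩ := hder t ⟨by linarith [ht.1], by linarith [ht.2]⟩
      rw [hv.deriv]; exact hv0
  have h0 := hanti ⟨le_rfl, by linarith⟩ ⟨by linarith, le_rfl⟩ (show -τ ≤ τ by linarith)
  obtain ⟨ha1, ha2⟩ := abs_lt.mp (hlt τ (by rw [abs_lt]; constructor <;> linarith))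
  obtain ⟨hb1, hb2⟩ := abs_lt.mp (hlt (-τ) (by rw [abs_lt]; constructor <;> linarith))
  set a := hh f u τ
  set b := hh f u (-τ)
  have hm : 0 < 1 - τ := by linarith
  have hP : (1 + a) * (1 - b) ≤ R ^ 2 * ((1 + b) * (1 - a)) := by
    simp only [hφ] at h0
    rw [show 1 - -τ = 1 + τ by ring, show 1 + -τ = 1 - τ by ring] at h0
    have hA : 0 < (1 - a) * (1 + τ) ^ d := mul_pos (by linarith) (pow_pos (by linarith) _)
    have hB : 0 < (1 - b) * (1 - τ) ^ d := mul_pos (by linarith) (pow_pos hm _)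
    rw [div_le_div_iff₀ hA hB] at h0
    rw [hR, div_pow, div_pow, div_mul_eq_mul_div, le_div_iff₀ (by positivity)]
    nlinarith
  -- `R + 1` times the gap is at most `2 (R - 1)`
  rw [← mul_div_assoc, le_div_iff₀ (by linarith)]
  set S := (1 + b) + (1 - a) with hS
  have hS0 : 0 < S := by rw [hS]; linarith
  have hR2 : 0 ≤ R ^ 2 - 1 := by nlinarith
  have h3 : 16 ≤ (R ^ 2 - 1) * S ^ 2 + 8 * S := by
    have h4 : 4 * ((1 + b) * (1 - a)) ≤ S ^ 2 := by rw [hS]; nlinarith [sq_nonneg (a + b)]
    have h5 := mul_le_mul_of_nonneg_left h4 hR2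
    rw [hS] at h5 ⊢
    nlinarith
  have h6 : 4 ≤ (R + 1) * S := by
    by_contra hc
    have h7 : 0 < (R - 1) * S + 4 := by nlinarith
    nlinarith [mul_pos (sub_pos.mpr (not_le.mp hc)) h7]
  rw [hS] at h6
  nlinarith

/-- `cos ((2k+1)θ) = cos θ · (oddT k)(cos² θ)` -/
noncomputable def oddT : ℕ → Polynomial ℝ
  | 0 => 1
  | 1 => 4 * Polynomial.X - 3
  | k + 2 => 2 * (2 * Polynomial.X - 1) * oddT (k + 1) - oddT k

lemma oddT_cos : ∀ (k : ℕ) (θ : ℝ),
    cos θ * (oddT k).eval (cos θ ^ 2) = cos ((2 * k + 1) * θ)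
  | 0, θ => by simp [oddT]
  | 1, θ => by
      simp [oddT]
      rw [show (2 + 1 : ℝ) * θ = 3 * θ by ring, cos_three_mul]
      ring
  | k + 2, θ => by
      have h1 := oddT_cos (k + 1) θ
      have h0 := oddT_cos k θ
      simp [oddT]
      push_cast at h1
      have h2 := cos_add_cos ((2 * ((k : ℝ) + 2) + 1) * θ) ((2 * (k : ℝ) + 1) * θ)
      rw [show ((2 * ((k : ℝ) + 2) + 1) * θ + (2 * (k : ℝ) + 1) * θ) / 2
            = (2 * ((k : ℝ) + 1) + 1) * θ by ring,
        show ((2 * ((k : ℝ) + 2) + 1) * θ - (2 * (k : ℝ) + 1) * θ) / 2 = 2 * θ by ring,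
        cos_two_mul] at h2
      linear_combination (2 * (2 * cos θ ^ 2 - 1)) * h1 - h0 - h2

lemma oddT_zero : ∀ k : ℕ, (oddT k).eval 0 = (-1) ^ k * (2 * k + 1)
  | 0 => by simp [oddT]
  | 1 => by simp [oddT]; norm_num
  | k + 2 => by
      simp [oddT, oddT_zero (k + 1), oddT_zero k, pow_succ]
      ring

lemma oddT_deg : ∀ k : ℕ, (oddT k).natDegree ≤ k
  | 0 => by simp [oddT]
  | 1 => by unfold oddT; compute_degree
  | k + 2 => by
      unfold oddT
      refine (Polynomial.natDegree_sub_le _ _).trans (max_le ?_ ?_)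
      · refine Polynomial.natDegree_mul_le.trans ?_
        have h1 : (2 * (2 * Polynomial.X - 1) : Polynomial ℝ).natDegree ≤ 1 := by compute_degree
        have := oddT_deg (k + 1)
        omega
      · have := oddT_deg k; omega

/-- square of the node `cos (l π / (2k+1))` -/
noncomputable def node (k l : ℕ) : ℝ := cos (l * π / (2 * k + 1)) ^ 2

/-- Lagrange weight at the origin -/
noncomputable def lag (k l : ℕ) : ℝ :=
  ∏ i ∈ (Finset.range (k + 1)).erase l, (0 - node k i) / (node k l - node k i)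

lemma cos_node_pos {k l : ℕ} (hl : l ≤ k) : 0 < cos (l * π / (2 * k + 1)) := by
  apply cos_pos_of_mem_Ioo
  have hl' : (l : ℝ) ≤ k := by exact_mod_cast hl
  have hk : (0 : ℝ) < 2 * k + 1 := by positivity
  constructor
  · have : 0 ≤ (l : ℝ) * π / (2 * k + 1) := by positivity
    linarith [pi_pos]
  · rw [div_lt_div_iff₀ hk two_pos]; nlinarith [pi_pos]

lemma node_lt {k i l : ℕ} (hil : i < l) (hl : l ≤ k) : node k l < node k i := by
  have hk : (0 : ℝ) < 2 * k + 1 := by positivity
  have h1 : cos (l * π / (2 * k + 1)) < cos (i * π / (2 * k + 1)) := by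
    apply cos_lt_cos_of_nonneg_of_le_pi (by positivity)
    · rw [div_le_iff₀ hk]
      have : (l : ℝ) ≤ k := by exact_mod_cast hl
      nlinarith [pi_pos]
    · apply div_lt_div_of_pos_right _ hk
      exact mul_lt_mul_of_pos_right (by exact_mod_cast hil) pi_pos
  exact pow_lt_pow_left₀ h1 (cos_node_pos hl).le two_ne_zero

lemma node_pos {k l : ℕ} (hl : l ≤ k) : 0 < node k l := pow_pos (cos_node_pos hl) 2

lemma lag_eval (k : ℕ) (P : Polynomial ℝ) (hP : P.natDegree ≤ k) :
    P.eval 0 = ∑ l ∈ Finset.range (k + 1), P.eval (node k l) * lag k l := by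
  have hinj : Set.InjOn (node k) (Finset.range (k + 1)) := by
    intro i hi j hj hij
    simp at hi hj
    rcases lt_trichotomy i j with h | h | h
    · exact absurd hij (node_lt h (by omega)).ne'
    · exact h
    · exact absurd hij (node_lt h (by omega)).ne
  have hdeg : P.degree < (Finset.range (k + 1)).card := by
    refine lt_of_le_of_lt Polynomial.degree_le_natDegree ?_
    simp only [Finset.card_range, Nat.cast_lt]
    omega
  conv_lhs => rw [Lagrange.eq_interpolate hinj hdeg, Lagrange.interpolate_apply]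
  simp only [Polynomial.eval_finsetSum, Polynomial.eval_mul, Polynomial.eval_C]
  refine Finset.sum_congr rfl fun l _ => ?_
  unfold lag Lagrange.basis Lagrange.basisDivisor
  simp [Polynomial.eval_prod, div_eq_inv_mul]

lemma lag_sign {k l : ℕ} (hl : l ≤ k) : 0 < (-1 : ℝ) ^ (k + l) * lag k l := by
  classical
  set F : Finset ℕ := (Finset.range (k + 1)).erase l
  have h : (-1 : ℝ) ^ (k + l) = ∏ i ∈ F, (if l < i then (-1 : ℝ) else 1) := by
    rw [Finset.prod_ite, Finset.prod_const, Finset.prod_const_one, mul_one]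
    have : F.filter (fun i => l < i) = Finset.Ioc l k := by
      ext i; simp [F]; omega
    rw [this, Nat.card_Ioc, show k + l = (k - l) + 2 * l by omega, pow_add, pow_mul]
    simp
  unfold lag
  rw [h, ← Finset.prod_mul_distrib]
  refine Finset.prod_pos fun i hi => ?_
  simp [F] at hi
  have hi0 := node_pos (k := k) (l := i) (by omega)
  split_ifs with hli
  · have := node_lt hli (show i ≤ k by omega)
    rw [show (-1 : ℝ) * ((0 - node k i) / (node k l - node k i))
      = node k i / (node k l - node k i) by ring]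
    exact div_pos hi0 (by linarith)
  · have := node_lt (show i < l by omega) hl
    rw [one_mul, zero_sub, ← neg_sub (node k i) (node k l), neg_div_neg_eq]
    exact div_pos hi0 (by linarith)

lemma one_le_lag_last (k : ℕ) : 1 ≤ lag k k := by
  unfold lag
  refine Finset.one_le_prod ?_
  intro i hi
  simp at hi
  have h1 := node_lt (k := k) (show i < k by omega) le_rfl
  have h2 := node_pos (k := k) (l := k) le_rfl
  rw [zero_sub, ← neg_sub (node k i) (node k k), neg_div_neg_eq, le_div_iff₀ (by linarith)]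
  linarith

lemma lag_abs_sum (k : ℕ) :
    ∑ l ∈ Finset.range (k + 1), |lag k l| / cos (l * π / (2 * k + 1)) = 2 * k + 1 := by
  have h := lag_eval k (oddT k) (oddT_deg k)
  rw [oddT_zero] at h
  have key : ∀ l ∈ Finset.range (k + 1), |lag k l| / cos (l * π / (2 * k + 1))
      = (-1) ^ k * ((oddT k).eval (node k l) * lag k l) := by
    intro l hl
    simp at hl
    have hc := cos_node_pos (k := k) (l := l) (by omega)
    have he : cos (l * π / (2 * k + 1)) * (oddT k).eval (node k l) = (-1) ^ l := by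
      unfold node
      rw [oddT_cos, mul_div_cancel₀ _ (by positivity)]
      exact cos_nat_mul_pi l
    have hs := lag_sign (k := k) (l := l) (by omega)
    have habs : |lag k l| = (-1) ^ (k + l) * lag k l := by
      conv_rhs => rw [← abs_of_pos hs, abs_mul, abs_pow]
      simp
    rw [habs, div_eq_iff hc.ne', pow_add, ← he]
    ring
  rw [Finset.sum_congr rfl key, ← Finset.mul_sum, ← h, ← mul_assoc, ← mul_pow]
  simp

/-- the odd part of `hh`, as a polynomial in `t²` divided by `t` -/
noncomputable def oddPoly (f : (Fin n → Bool) → ℝ) (u : Fin n → ℝ) : Polynomial ℝ :=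
  ∑ S : Finset (Fin n), if Odd S.card then
    Polynomial.C (co f S * ∏ i ∈ S, u i) * Polynomial.X ^ ((S.card - 1) / 2) else 0

lemma oddPoly_eval (t : ℝ) :
    t * (oddPoly f u).eval (t ^ 2) = (hh f u t - hh f u (-t)) / 2 := by
  unfold oddPoly hh
  rw [Polynomial.eval_finsetSum, Finset.mul_sum, ← Finset.sum_sub_distrib, Finset.sum_div]
  refine Finset.sum_congr rfl fun S _ => ?_
  split_ifs with h
  · obtain ⟨j, hj⟩ := h
    simp [hj, pow_succ, Polynomial.eval_prod]
    ring
  · obtain ⟨j, hj⟩ := Nat.not_odd_iff_even.mp h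
    simp [hj, ← two_mul, pow_mul]

lemma oddPoly_zero : (oddPoly f u).eval 0 = ∑ i, u i * co f {i} := by
  classical
  unfold oddPoly
  rw [Polynomial.eval_finsetSum]
  have h : ∀ S : Finset (Fin n), Polynomial.eval 0 (if Odd S.card then
      Polynomial.C (co f S * ∏ i ∈ S, u i) * Polynomial.X ^ ((S.card - 1) / 2) else 0)
      = if S.card = 1 then co f S * ∏ i ∈ S, u i else 0 := by
    intro S
    rcases Nat.lt_trichotomy S.card 1 with h | h | h
    · simp [show S.card = 0 by omega]
    · simp [h, Polynomial.eval_prod]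
    · rw [if_neg (show ¬ S.card = 1 by omega)]
      split_ifs with ho
      · obtain ⟨j, hj⟩ := ho
        simp [hj, zero_pow (show j ≠ 0 by omega)]
      · simp
  rw [Finset.sum_congr rfl fun S _ => h S, ← Finset.sum_filter]
  have hm : (Finset.univ : Finset (Finset (Fin n))).filter (fun S => S.card = 1)
      = Finset.univ.map ⟨fun i => {i}, fun a b hab => by simpa using hab⟩ := by
    ext S
    simp only [Finset.mem_filter, Finset.mem_map, mem_univ, true_and, Finset.card_eq_one]
    exact ⟨fun ⟨a, ha⟩ => ⟨a, ha.symm⟩, fun ⟨a, ha⟩ => ⟨a, ha.symm⟩⟩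
  rw [hm, Finset.sum_map]
  refine Finset.sum_congr rfl fun i _ => ?_
  show co f {i} * ∏ j ∈ ({i} : Finset (Fin n)), u j = u i * co f {i}
  rw [Finset.prod_singleton, mul_comm]

lemma oddPoly_deg {k : ℕ} (hdeg : ∀ S : Finset (Fin n), d < S.card → co f S = 0)
    (hk : d ≤ 2 * k + 2) : (oddPoly f u).natDegree ≤ k := by
  unfold oddPoly
  refine Polynomial.natDegree_sum_le_of_forall_le _ _ fun S _ => ?_
  split_ifs with h
  · by_cases hS : d < S.card
    · simp [hdeg S hS]
    · refine (Polynomial.natDegree_C_mul_X_pow_le _ _).trans ?_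
      obtain ⟨j, hj⟩ := h
      omega
  · simp

lemma core (hf : ∀ x, f x = 1 ∨ f x = -1) (hu : ∀ i, u i = 1 ∨ u i = -1)
    (hdeg : ∀ S : Finset (Fin n), d < S.card → co f S = 0) {k : ℕ} (hk : d ≤ 2 * k + 2) :
    ∑ i, u i * co f {i} ≤ 2 * k + 1 ∧
      ∀ τ, τ = cos (k * π / (2 * k + 1)) → τ < 1 →
        ∑ i, u i * co f {i} ≤ 2 * k + 1 - 2 / ((((1 + τ) / (1 - τ)) ^ d + 1) * τ) := by
  set P := oddPoly f u
  have hP : ∀ l ≤ k, |P.eval (node k l)| * cos (l * π / (2 * k + 1)) ≤ 1 := by
    intro l hl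
    have hc := cos_node_pos hl
    have h := oddPoly_eval (f := f) (u := u) (cos (l * π / (2 * k + 1)))
    have h1 := abs_le.mp (hh_abs_le (u := u) hf hu (abs_cos_le_one (l * π / (2 * k + 1))))
    have h2 := abs_le.mp (hh_abs_le (u := u) hf hu (t := -cos (l * π / (2 * k + 1)))
      (by rw [abs_neg]; exact abs_cos_le_one _))
    have h3 : |cos (l * π / (2 * k + 1)) * P.eval (node k l)| ≤ 1 := by
      unfold node
      rw [h, abs_le]
      constructor <;> linarith [h1.1, h1.2, h2.1, h2.2]
    rw [abs_mul, abs_of_pos hc] at h3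
    linarith
  have heq : ∑ i, u i * co f {i} = ∑ l ∈ Finset.range (k + 1), P.eval (node k l) * lag k l := by
    rw [← oddPoly_zero, lag_eval k P (oddPoly_deg hdeg hk)]
  have hterm : ∀ l ∈ Finset.range (k + 1),
      P.eval (node k l) * lag k l ≤ |lag k l| / cos (l * π / (2 * k + 1)) := by
    intro l hl
    simp at hl
    have hc := cos_node_pos (k := k) (l := l) (by omega)
    rw [le_div_iff₀ hc]
    calc P.eval (node k l) * lag k l * cos (l * π / (2 * k + 1))
        ≤ (|P.eval (node k l)| * cos (l * π / (2 * k + 1))) * |lag k l| := by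
          have := le_abs_self (P.eval (node k l) * lag k l)
          rw [abs_mul] at this
          nlinarith
      _ ≤ 1 * |lag k l| := mul_le_mul_of_nonneg_right (hP l (by omega)) (abs_nonneg _)
      _ = |lag k l| := one_mul _
  refine ⟨?_, ?_⟩
  · rw [heq, ← lag_abs_sum k]
    exact Finset.sum_le_sum hterm
  intro τ hτ hτ1
  have hτ0 : 0 < τ := by rw [hτ]; exact cos_node_pos le_rfl
  set R := ((1 + τ) / (1 - τ)) ^ d
  have hR1 : 1 ≤ R := one_le_pow₀ (by rw [le_div_iff₀ (by linarith)]; linarith)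
  have hd := hh_diff_le hf hu hdeg hτ0.le hτ1
  have hL := one_le_lag_last k
  have hlast : P.eval (node k k) * lag k k ≤ |lag k k| / τ - 2 / ((R + 1) * τ) := by
    have h := oddPoly_eval (f := f) (u := u) τ
    rw [show node k k = τ ^ 2 by rw [hτ]; rfl]
    have h2 : τ * P.eval (τ ^ 2) ≤ (R - 1) / (R + 1) := by rw [h]; linarith
    rw [abs_of_pos (by linarith)]
    have h3 : P.eval (τ ^ 2) ≤ (R - 1) / (R + 1) / τ := by
      rw [le_div_iff₀ hτ0]; linarith
    refine (mul_le_mul_of_nonneg_right h3 (by linarith)).trans ?_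
    have e : (R - 1) / (R + 1) / τ * lag k k = lag k k / τ - 2 / ((R + 1) * τ) * lag k k := by
      field_simp; ring
    rw [e]
    have : 0 ≤ 2 / ((R + 1) * τ) := by positivity
    nlinarith
  rw [heq, ← lag_abs_sum k, Finset.sum_range_succ, Finset.sum_range_succ, ← hτ]
  have := Finset.sum_le_sum (s := Finset.range k) fun l hl =>
    hterm l (by simp at hl ⊢; omega)
  linarith

lemma cos_last_le (k : ℕ) : cos (k * π / (2 * k + 1)) ≤ π / (2 * (2 * k + 1)) := by
  have : (k : ℝ) * π / (2 * k + 1) = π / 2 - π / (2 * (2 * k + 1)) := by field_simp; ring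
  rw [this, cos_pi_div_two_sub]
  exact sin_le (by positivity)

theorem linear_bound (hf : ∀ x, f x = 1 ∨ f x = -1) (hd : 2 ≤ d)
    (hdeg : ∀ S : Finset (Fin n), d < S.card → co f S = 0) :
    ∑ i, |co f {i}| ≤ 24 / 25 * d := by
  set u : Fin n → ℝ := fun i => if 0 ≤ co f {i} then 1 else -1 with hu_def
  have hu : ∀ i, u i = 1 ∨ u i = -1 := fun i => by
    simp only [hu_def]; split_ifs <;> simp
  have habs : ∑ i, |co f {i}| = ∑ i, u i * co f {i} := by
    refine Finset.sum_congr rfl fun i _ => ?_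
    simp only [hu_def]
    split_ifs with h
    · rw [abs_of_nonneg h, one_mul]
    · rw [abs_of_neg (not_le.mp h)]; ring
  rw [habs]
  set k := (d - 1) / 2
  obtain ⟨hA, hB⟩ := core hf hu hdeg (k := k) (by omega)
  have hkd : (2 * k + 1 : ℝ) ≤ d := by exact_mod_cast (show 2 * k + 1 ≤ d by omega)
  by_cases hsmall : 2 * k + 1 < d ∧ d ≤ 25
  · have h1 : (2 * k + 1 : ℝ) + 1 ≤ d := by exact_mod_cast hsmall.1
    have h2 : (d : ℝ) ≤ 25 := by exact_mod_cast hsmall.2
    linarith
  have hk1 : 1 ≤ k := by omega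
  have hτpos := cos_node_pos (k := k) (l := k) le_rfl
  set τ := cos (k * π / (2 * k + 1)) with hτdef
  have hτle : τ ≤ π / (2 * (2 * k + 1)) := cos_last_le k
  rcases Nat.lt_or_ge k 3 with hk3 | hk3
  · interval_cases hkk : k
    · have hd3 : d = 3 := by omega
      have ht : τ = 1 / 2 := by
        rw [hτdef]; norm_num
      have h := hB τ rfl (by rw [ht]; norm_num)
      rw [ht, hd3] at h
      rw [hd3]
      norm_num at h ⊢
      linarith
    · have hd5 : d = 5 := by omega
      have ht : τ ≤ 3142 / 10000 := by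
        refine hτle.trans ?_
        rw [div_le_iff₀ (by norm_num)]
        norm_num
        linarith [pi_lt_d4]
      have hR : ((1 + τ) / (1 - τ)) ^ d ≤ 26 := by
        rw [hd5]
        refine (pow_le_pow_left₀ (div_nonneg (by linarith) (by linarith))
          (show (1 + τ) / (1 - τ) ≤ 1917 / 1000 from ?_) 5).trans (by norm_num)
        rw [div_le_iff₀ (by linarith)]; linarith
      have h := hB τ rfl (by linarith)
      have hg : (1 : ℝ) / 5 ≤ 2 / ((((1 + τ) / (1 - τ)) ^ d + 1) * τ) := by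
        rw [div_le_div_iff₀ (by norm_num)
          (mul_pos (by linarith [pow_nonneg (div_nonneg (show 0 ≤ 1 + τ by linarith)
            (show 0 ≤ 1 - τ by linarith)) d]) hτpos)]
        nlinarith
      rw [hd5] at hg h ⊢
      norm_num at h hg ⊢
      linarith
  have hkR : (7 : ℝ) ≤ 2 * k + 1 := by
    have : (3 : ℝ) ≤ k := by exact_mod_cast hk3
    linarith
  have hπ := pi_lt_d4
  have ht : τ ≤ 2245 / 10000 := by
    refine hτle.trans ?_
    rw [div_le_iff₀ (by positivity)]
    nlinarith
  -- exponent of the odds ratio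
  have hexp : (d : ℝ) * (2 * τ / (1 - τ ^ 2)) ≤ 3309 / 1000 := by
    have h1 : τ * (2 * (2 * k + 1)) ≤ π := by
      rw [← le_div_iff₀ (by positivity)]; exact hτle
    rw [← mul_div_assoc, div_le_iff₀ (by nlinarith)]
    rcases (show d = 2 * k + 1 ∨ (d = 2 * k + 2 ∧ 25 < d) by omega) with he | ⟨he, hbig⟩
    · have : (d : ℝ) = 2 * k + 1 := by exact_mod_cast he
      rw [this]; nlinarith
    · have h25 : (25 : ℝ) ≤ 2 * k + 1 := by exact_mod_cast (show 25 ≤ 2 * k + 1 by omega)
      have : (d : ℝ) = 2 * k + 2 := by exact_mod_cast he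
      rw [this]
      have ht2 : τ ≤ 63 / 1000 := by
        refine hτle.trans ?_
        rw [div_le_iff₀ (by positivity)]
        nlinarith
      nlinarith
  have hR : ((1 + τ) / (1 - τ)) ^ d ≤ 2909 / 100 := by
    have hr : (0 : ℝ) < (1 + τ) / (1 - τ) := div_pos (by linarith) (by linarith)
    have hlog := Real.log_div_le_sum_range_add hτpos.le (by linarith : τ < 1) 0
    simp at hlog
    have h1 : (1 + τ) / (1 - τ) ≤ exp (2 * τ / (1 - τ ^ 2)) := by
      rw [← Real.log_le_iff_le_exp hr]
      rw [mul_div_assoc]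
      linarith
    refine (pow_le_pow_left₀ hr.le h1 d).trans ?_
    rw [← exp_nat_mul]
    refine (exp_le_exp.mpr hexp).trans ?_
    rw [show (3309 / 1000 : ℝ) = (3 : ℕ) * 1 + 309 / 1000 by norm_num, exp_add, exp_nat_mul]
    have he3 : exp 1 ^ 3 ≤ (27182818286 / 10000000000 : ℝ) ^ 3 :=
      pow_le_pow_left₀ (exp_pos 1).le (by have := exp_one_lt_d9; norm_num at this ⊢; linarith) 3
    have he4 : exp (309 / 1000 : ℝ) ≤ 1000 / 691 := by
      have := exp_bound_div_one_sub_of_interval (x := (309 / 1000 : ℝ)) (by norm_num) (by norm_num)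
      norm_num at this ⊢
      linarith
    calc exp 1 ^ 3 * exp (309 / 1000 : ℝ)
        ≤ (27182818286 / 10000000000 : ℝ) ^ 3 * (1000 / 691) :=
          mul_le_mul he3 he4 (exp_pos _).le (by positivity)
      _ ≤ 2909 / 100 := by norm_num
  have h := hB τ rfl (by linarith)
  have hg : (2 * (k : ℝ) + 1) / 25 ≤ 2 / ((((1 + τ) / (1 - τ)) ^ d + 1) * τ) := by
    have hp : 0 ≤ ((1 + τ) / (1 - τ)) ^ d :=
      pow_nonneg (div_nonneg (by linarith) (by linarith)) d
    rw [div_le_div_iff₀ (by norm_num) (mul_pos (by linarith) hτpos)]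
    have h1 : τ * (2 * (2 * k + 1)) ≤ π := by
      rw [← le_div_iff₀ (by positivity)]; exact hτle
    nlinarith
  linarith

end Vale.Agent.P047.LinBound
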