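import Mathlib

/-!
An asymptotic lower bound for the level-one Fourier mass at given degree, beating majority.

A ten-bit gadget takes four values `±3, ±1`; the indicator of each value has degree at most five,
and the value is the conditional expectation of the sum of the ten bits. The sign of the sum of
`m` independent gadgets has degree at most `5 m`, and its level-one mass is `E|Y_1 + ⋯ + Y_m|`,
where `E Y^2 = 11/2`.
-/

namespace Vale.Agent.P047.LowerBound

open Finset MeasureTheory ProbabilityTheory Filter

/-- a literal: coordinate and required value -/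
abbrev Lit := ℕ × Bool

/-- gadget inputs -/
abbrev Cell := Fin 10 → Bool

/-- the value of a literal's coordinate -/
def bit (a b c d e f g h i j : Bool) : ℕ → Bool
  | 0 => a | 1 => b | 2 => c | 3 => d | 4 => e | 5 => f | 6 => g | 7 => h | 8 => i | _ => j

/-- bit of a cell by number, the last one beyond the range -/
def getBit (y : Cell) : ℕ → Bool := bit (y 0) (y 1) (y 2) (y 3) (y 4) (y 5) (y 6) (y 7) (y 8) (y 9)

/-- whether all literals hold -/
def holds (g : ℕ → Bool) : List Lit → Bool
  | [] => true
  | p :: l => (g p.1 == p.2) && holds g l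

/-- signed count of the cubes containing a point -/
def evalT (g : ℕ → Bool) : List (ℤ × List Lit) → ℤ
  | [] => 0
  | p :: T => (bif holds g p.2 then p.1 else 0) + evalT g T

/-- cubes for the value 3 -/
def hiT : List (ℤ × List Lit) := [
    (1, [(0, true), (1, true), (2, true), (3, true), (4, false)]),
    (1, [(0, true), (1, true), (2, true), (4, true), (5, false)]),
    (1, [(0, true), (1, true), (2, true), (5, true), (3, false)]),
    (1, [(3, true), (4, true), (5, true), (6, true), (7, false)]),
    (1, [(3, true), (4, true), (5, true), (7, true), (8, false)]),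
    (1, [(3, true), (4, true), (5, true), (8, true), (6, false)]),
    (1, [(6, true), (7, true), (8, true), (0, true), (1, false)]),
    (1, [(6, true), (7, true), (8, true), (1, true), (2, false)]),
    (1, [(6, true), (7, true), (8, true), (2, true), (0, false)])]

/-- cubes for the value -3 -/
def loT : List (ℤ × List Lit) := [
    (1, [(0, false), (1, false), (2, false), (3, true), (4, false)]),
    (1, [(0, false), (1, false), (2, false), (4, true), (5, false)]),
    (1, [(0, false), (1, false), (2, false), (5, true), (3, false)]),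
    (1, [(3, false), (4, false), (5, false), (6, true), (7, false)]),
    (1, [(3, false), (4, false), (5, false), (7, true), (8, false)]),
    (1, [(3, false), (4, false), (5, false), (8, true), (6, false)]),
    (1, [(6, false), (7, false), (8, false), (0, true), (1, false)]),
    (1, [(6, false), (7, false), (8, false), (1, true), (2, false)]),
    (1, [(6, false), (7, false), (8, false), (2, true), (0, false)])]

/-- cubes for the value 1 -/
def upT : List (ℤ × List Lit) := [
    (1, [(9, true)]),
    (-1, [(9, true), (0, true), (1, false)]),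
    (-1, [(9, true), (1, true), (2, false)]),
    (-1, [(9, true), (2, true), (0, false)]),
    (-1, [(9, true), (3, true), (4, false)]),
    (-1, [(9, true), (4, true), (5, false)]),
    (-1, [(9, true), (5, true), (3, false)]),
    (-1, [(9, true), (6, true), (7, false)]),
    (-1, [(9, true), (7, true), (8, false)]),
    (-1, [(9, true), (8, true), (6, false)]),
    (1, [(9, true), (0, true), (1, false), (3, true), (4, false)]),
    (1, [(9, true), (0, true), (1, false), (4, true), (5, false)]),
    (1, [(9, true), (0, true), (1, false), (5, true), (3, false)]),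
    (1, [(9, true), (1, true), (2, false), (3, true), (4, false)]),
    (1, [(9, true), (1, true), (2, false), (4, true), (5, false)]),
    (1, [(9, true), (1, true), (2, false), (5, true), (3, false)]),
    (1, [(9, true), (2, true), (0, false), (3, true), (4, false)]),
    (1, [(9, true), (2, true), (0, false), (4, true), (5, false)]),
    (1, [(9, true), (2, true), (0, false), (5, true), (3, false)]),
    (1, [(9, true), (3, true), (4, false), (6, true), (7, false)]),
    (1, [(9, true), (3, true), (4, false), (7, true), (8, false)]),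
    (1, [(9, true), (3, true), (4, false), (8, true), (6, false)]),
    (1, [(9, true), (4, true), (5, false), (6, true), (7, false)]),
    (1, [(9, true), (4, true), (5, false), (7, true), (8, false)]),
    (1, [(9, true), (4, true), (5, false), (8, true), (6, false)]),
    (1, [(9, true), (5, true), (3, false), (6, true), (7, false)]),
    (1, [(9, true), (5, true), (3, false), (7, true), (8, false)]),
    (1, [(9, true), (5, true), (3, false), (8, true), (6, false)]),
    (1, [(9, true), (6, true), (7, false), (0, true), (1, false)]),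
    (1, [(9, true), (6, true), (7, false), (1, true), (2, false)]),
    (1, [(9, true), (6, true), (7, false), (2, true), (0, false)]),
    (1, [(9, true), (7, true), (8, false), (0, true), (1, false)]),
    (1, [(9, true), (7, true), (8, false), (1, true), (2, false)]),
    (1, [(9, true), (7, true), (8, false), (2, true), (0, false)]),
    (1, [(9, true), (8, true), (6, false), (0, true), (1, false)]),
    (1, [(9, true), (8, true), (6, false), (1, true), (2, false)]),
    (1, [(9, true), (8, true), (6, false), (2, true), (0, false)])]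

/-- cubes for the value -1 -/
def dnT : List (ℤ × List Lit) := [
    (1, [(9, false)]),
    (-1, [(9, false), (0, true), (1, false)]),
    (-1, [(9, false), (1, true), (2, false)]),
    (-1, [(9, false), (2, true), (0, false)]),
    (-1, [(9, false), (3, true), (4, false)]),
    (-1, [(9, false), (4, true), (5, false)]),
    (-1, [(9, false), (5, true), (3, false)]),
    (-1, [(9, false), (6, true), (7, false)]),
    (-1, [(9, false), (7, true), (8, false)]),
    (-1, [(9, false), (8, true), (6, false)]),
    (1, [(9, false), (0, true), (1, false), (3, true), (4, false)]),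
    (1, [(9, false), (0, true), (1, false), (4, true), (5, false)]),
    (1, [(9, false), (0, true), (1, false), (5, true), (3, false)]),
    (1, [(9, false), (1, true), (2, false), (3, true), (4, false)]),
    (1, [(9, false), (1, true), (2, false), (4, true), (5, false)]),
    (1, [(9, false), (1, true), (2, false), (5, true), (3, false)]),
    (1, [(9, false), (2, true), (0, false), (3, true), (4, false)]),
    (1, [(9, false), (2, true), (0, false), (4, true), (5, false)]),
    (1, [(9, false), (2, true), (0, false), (5, true), (3, false)]),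
    (1, [(9, false), (3, true), (4, false), (6, true), (7, false)]),
    (1, [(9, false), (3, true), (4, false), (7, true), (8, false)]),
    (1, [(9, false), (3, true), (4, false), (8, true), (6, false)]),
    (1, [(9, false), (4, true), (5, false), (6, true), (7, false)]),
    (1, [(9, false), (4, true), (5, false), (7, true), (8, false)]),
    (1, [(9, false), (4, true), (5, false), (8, true), (6, false)]),
    (1, [(9, false), (5, true), (3, false), (6, true), (7, false)]),
    (1, [(9, false), (5, true), (3, false), (7, true), (8, false)]),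
    (1, [(9, false), (5, true), (3, false), (8, true), (6, false)]),
    (1, [(9, false), (6, true), (7, false), (0, true), (1, false)]),
    (1, [(9, false), (6, true), (7, false), (1, true), (2, false)]),
    (1, [(9, false), (6, true), (7, false), (2, true), (0, false)]),
    (1, [(9, false), (7, true), (8, false), (0, true), (1, false)]),
    (1, [(9, false), (7, true), (8, false), (1, true), (2, false)]),
    (1, [(9, false), (7, true), (8, false), (2, true), (0, false)]),
    (1, [(9, false), (8, true), (6, false), (0, true), (1, false)]),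
    (1, [(9, false), (8, true), (6, false), (1, true), (2, false)]),
    (1, [(9, false), (8, true), (6, false), (2, true), (0, false)])]

/-- mixed pattern -/
def mixd (a b c : Bool) : Bool := a != b || b != c

/-- the gadget on ten bits -/
def gad10 (a b c d e f g h i j : Bool) : ℤ :=
  bif (a && b && c && mixd d e f) || (d && e && f && mixd g h i) || (g && h && i && mixd a b c)
  then 3
  else bif (!a && !b && !c && mixd d e f) || (!d && !e && !f && mixd g h i) ||
      (!g && !h && !i && mixd a b c)
  then -3
  else bif j then 1 else -1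

/-- the gadget -/
def gad (y : Cell) : ℤ := gad10 (y 0) (y 1) (y 2) (y 3) (y 4) (y 5) (y 6) (y 7) (y 8) (y 9)

/-- the cubes expanding the indicator of a gadget value -/
def pieceT (v : ℤ) : List (ℤ × List Lit) :=
  if v = 3 then hiT else if v = -3 then loT else if v = 1 then upT else if v = -1 then dnT else []

/-- sum of the ten bits as signs -/
def lin (y : Cell) : ℤ := ∑ k, if y k then 1 else -1

/-- the four values -/
def vals : Finset ℤ := {3, -3, 1, -1}

/-- a Boolean equality test of integers on the four values -/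
def isEq (u v : ℤ) : ℤ := bif decide (u = v) then 1 else 0

/-- sign of a bit -/
def s1 (a : Bool) : ℤ := bif a then 1 else -1

/-- sum of a function over both bits -/
def two (F : Bool → ℤ) : ℤ := F true + F false

/-- sum of a function of ten bits -/
def all10 (F : Bool → Bool → Bool → Bool → Bool → Bool → Bool → Bool → Bool → Bool → ℤ) : ℤ :=
  two fun a => two fun b => two fun c => two fun d => two fun e => two fun f => two fun g =>
    two fun h => two fun i => two fun j => F a b c d e f g h i j

lemma sum_cons {k : ℕ} (F : (Fin (k + 1) → Bool) → ℤ) :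
    ∑ y, F y = two fun a => ∑ y' : Fin k → Bool, F (Fin.cons a y') := by
  rw [← (Fin.consEquiv fun _ => Bool).sum_comp, Fintype.sum_prod_type, Fintype.sum_bool]
  rfl

lemma cell_sum (F : Bool → Bool → Bool → Bool → Bool → Bool → Bool → Bool → Bool → Bool → ℤ) :
    ∑ y : Cell, F (y 0) (y 1) (y 2) (y 3) (y 4) (y 5) (y 6) (y 7) (y 8) (y 9) = all10 F := by
  simp only [sum_cons, Fintype.sum_unique]
  rfl

lemma gad10_mem : ∀ a b c d e f g h i j : Bool,
    gad10 a b c d e f g h i j = 3 ∨ gad10 a b c d e f g h i j = -3 ∨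
      gad10 a b c d e f g h i j = 1 ∨ gad10 a b c d e f g h i j = -1 := by
  intro a b c d e f g h i j
  unfold gad10
  cases (a && b && c && mixd d e f) || (d && e && f && mixd g h i) ||
      (g && h && i && mixd a b c) <;>
    cases (!a && !b && !c && mixd d e f) || (!d && !e && !f && mixd g h i) ||
      (!g && !h && !i && mixd a b c) <;> cases j <;> simp

lemma gad_mem (y : Cell) : gad y ∈ vals := by
  simpa [vals, gad] using gad10_mem (y 0) (y 1) (y 2) (y 3) (y 4) (y 5) (y 6) (y 7) (y 8) (y 9)

lemma hi_eq : ∀ a b c d e f g h i j : Bool,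
    evalT (bit a b c d e f g h i j) hiT = isEq (gad10 a b c d e f g h i j) 3 := by
  intro a b; cases a <;> cases b <;> decide +kernel

lemma lo_eq : ∀ a b c d e f g h i j : Bool,
    evalT (bit a b c d e f g h i j) loT = isEq (gad10 a b c d e f g h i j) (-3) := by
  intro a b; cases a <;> cases b <;> decide +kernel

lemma up_eq : ∀ a b c d e f g h i j : Bool,
    evalT (bit a b c d e f g h i j) upT = isEq (gad10 a b c d e f g h i j) 1 := by
  intro a b; cases a <;> cases b <;> decide +kernel

lemma dn_eq : ∀ a b c d e f g h i j : Bool,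
    evalT (bit a b c d e f g h i j) dnT = isEq (gad10 a b c d e f g h i j) (-1) := by
  intro a b; cases a <;> cases b <;> decide +kernel

lemma piece_eq (v : ℤ) (hv : v ∈ vals) (y : Cell) :
    evalT (getBit y) (pieceT v) = if gad y = v then 1 else 0 := by
  have hq : ∀ u w : ℤ, isEq u w = if u = w then 1 else 0 := fun u w => by
    by_cases h : u = w <;> simp [isEq, h]
  simp only [vals, Finset.mem_insert, Finset.mem_singleton] at hv
  rcases hv with rfl | rfl | rfl | rfl <;> rw [← hq]
  · exact hi_eq ..
  · exact lo_eq ..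
  · exact up_eq ..
  · exact dn_eq ..

lemma piece_len : ∀ v ∈ vals, ∀ p ∈ pieceT v, p.2.length ≤ 5 ∧ ∀ q ∈ p.2, q.1 < 10 := by
  decide +kernel

/-- signed excess of the linear form on one value -/
def fib (v : ℤ) : ℤ := all10 fun a b c d e f g h i j =>
  isEq (gad10 a b c d e f g h i j) v *
    (s1 a + s1 b + s1 c + s1 d + s1 e + s1 f + s1 g + s1 h + s1 i + s1 j - v)

lemma fib_three : fib 3 = 0 := by decide +kernel

lemma fib_neg_three : fib (-3) = 0 := by decide +kernel

lemma fib_one : fib 1 = 0 := by decide +kernel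

lemma fib_neg_one : fib (-1) = 0 := by decide +kernel

lemma lin_fiber : ∀ v ∈ vals,
    (∑ y : Cell, if gad y = v then lin y - v else 0) = 0 := by
  intro v hv
  have h : fib v = 0 := by
    simp only [vals, Finset.mem_insert, Finset.mem_singleton] at hv
    rcases hv with rfl | rfl | rfl | rfl
    exacts [fib_three, fib_neg_three, fib_one, fib_neg_one]
  refine Eq.trans ?_ ((cell_sum (fun a b c d e f g h i j =>
    isEq (gad10 a b c d e f g h i j) v *
      (s1 a + s1 b + s1 c + s1 d + s1 e + s1 f + s1 g + s1 h + s1 i + s1 j - v))).trans h)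
  refine Finset.sum_congr rfl fun y _ => ?_
  have hl : lin y = s1 (y 0) + s1 (y 1) + s1 (y 2) + s1 (y 3) + s1 (y 4) + s1 (y 5) + s1 (y 6) +
      s1 (y 7) + s1 (y 8) + s1 (y 9) := by
    have hs : ∀ t : Bool, (if t then (1 : ℤ) else -1) = s1 t := fun t => by
      cases t <;> rfl
    simp only [lin, hs, Fin.sum_univ_succ, Fin.sum_univ_zero, add_zero, add_assoc]
    rfl
  rw [← hl]
  show _ = isEq (gad y) v * (lin y - v)
  by_cases hg : gad y = v <;> simp [isEq, hg]

lemma gad_sum : (∑ y : Cell, gad y) = 0 := by
  unfold gad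
  rw [cell_sum]
  decide +kernel

lemma gad_sq : (∑ y : Cell, gad y ^ 2) = 5632 := by
  unfold gad
  rw [cell_sum (fun a b c d e f g h i j => gad10 a b c d e f g h i j ^ 2)]
  decide +kernel

/-- a bit as a sign -/
def sg (b : Bool) : ℝ := if b then 1 else -1

lemma getBit_val (y : Cell) (k : Fin 10) : getBit y k.val = y k := by
  fin_cases k <;> rfl

/-- indicator of the cube cut out by literals -/
def cubeInd (l : List Lit) (y : Cell) : ℤ := bif holds (getBit y) l then 1 else 0

lemma evalT_cons (y : Cell) (p : ℤ × List Lit) (T : List (ℤ × List Lit)) :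
    evalT (getBit y) (p :: T) = p.1 * cubeInd p.2 y + evalT (getBit y) T := by
  simp only [evalT, cubeInd]
  cases holds (getBit y) p.2 <;> simp

lemma cube_char_zero (l : List Lit) (hl : l.length ≤ 5) (hlt : ∀ q ∈ l, q.1 < 10)
    (S : Finset (Fin 10)) (hS : 5 < S.card) :
    ∑ y : Cell, (cubeInd l y : ℝ) * ∏ k ∈ S, sg (y k) = 0 := by
  classical
  set J : Finset (Fin 10) := (l.map fun q => Fin.ofNat 10 q.1).toFinset with hJ
  have hJc : J.card ≤ 5 := (List.toFinset_card_le _).trans (by simpa using hl)
  obtain ⟨k, hkS, hkJ⟩ : ∃ k ∈ S, k ∉ J := by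
    by_contra h
    push Not at h
    have := Finset.card_le_card h
    omega
  let flip : Cell → Cell := fun y => Function.update y k (!y k)
  have hflip : ∀ y, flip (flip y) = y := fun y => by
    funext j; by_cases hj : j = k <;> simp [flip, Function.update, hj]
  have hterm : ∀ y, (cubeInd l (flip y) : ℝ) * ∏ j ∈ S, sg (flip y j)
      = -((cubeInd l y : ℝ) * ∏ j ∈ S, sg (y j)) := by
    intro y
    have h1 : cubeInd l (flip y) = cubeInd l y := by
      unfold cubeInd
      suffices ∀ l' : List Lit, (∀ q ∈ l', q ∈ l) →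
          holds (getBit (flip y)) l' = holds (getBit y) l' by
        rw [this l fun q hq => hq]
      intro l'
      induction l' with
      | nil => simp [holds]
      | cons q l' ih =>
        intro hsub
        have hq := hsub q List.mem_cons_self
        have hne : (Fin.ofNat 10 q.1) ≠ k := fun e =>
          hkJ (by rw [hJ, List.mem_toFinset, List.mem_map]; exact ⟨q, hq, e⟩)
        have hv : (Fin.ofNat 10 q.1 : Fin 10).val = q.1 := by
          simp [Fin.ofNat, Nat.mod_eq_of_lt (hlt q hq)]
        have hg : ∀ y' : Cell, getBit y' q.1 = y' (Fin.ofNat 10 q.1) := fun y' => by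
          rw [← getBit_val y' (Fin.ofNat 10 q.1), hv]
        simp only [holds]
        rw [ih (fun r hr => hsub r (List.mem_cons_of_mem _ hr)), hg, hg]
        simp only [flip]
        rw [Function.update_of_ne hne]
    rw [h1, ← Finset.mul_prod_erase S _ hkS, ← Finset.mul_prod_erase S (fun j => sg (y j)) hkS]
    have h2 : ∀ j ∈ S.erase k, sg (flip y j) = sg (y j) := fun j hj => by
      simp [flip, Function.update_of_ne (Finset.ne_of_mem_erase hj)]
    rw [Finset.prod_congr rfl h2]
    cases hy : y k <;> simp [flip, sg, hy]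
  have hs : ∑ y, (cubeInd l (flip y) : ℝ) * ∏ j ∈ S, sg (flip y j)
      = ∑ y, (cubeInd l y : ℝ) * ∏ j ∈ S, sg (y j) :=
    Fintype.sum_equiv ⟨flip, flip, hflip, hflip⟩ _ _ fun y => rfl
  rw [Finset.sum_congr rfl fun y _ => hterm y, Finset.sum_neg_distrib] at hs
  linarith

lemma value_char_zero (v : ℤ) (hv : v ∈ vals) (S : Finset (Fin 10)) (hS : 5 < S.card) :
    ∑ y : Cell, (if gad y = v then (1 : ℝ) else 0) * ∏ k ∈ S, sg (y k) = 0 := by
  have h : ∀ y, (if gad y = v then (1 : ℝ) else 0) = (evalT (getBit y) (pieceT v) : ℝ) := by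
    intro y
    rw [piece_eq v hv y]
    split_ifs <;> simp
  simp only [h]
  have hgen : ∀ T : List (ℤ × List Lit), (∀ p ∈ T, p.2.length ≤ 5 ∧ ∀ q ∈ p.2, q.1 < 10) →
      ∑ y : Cell, (evalT (getBit y) T : ℝ) * ∏ k ∈ S, sg (y k) = 0 := by
    intro T
    induction T with
    | nil => simp [evalT]
    | cons p T ih =>
      intro hp
      simp only [evalT_cons, Int.cast_add, Int.cast_mul, add_mul, Finset.sum_add_distrib,
        mul_assoc, ← Finset.mul_sum]
      obtain ⟨hp1, hp2⟩ := hp p List.mem_cons_self
      rw [cube_char_zero p.2 hp1 hp2 S hS, mul_zero, zero_add]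
      exact ih fun q hq => hp q (List.mem_cons_of_mem _ hq)
  exact hgen _ (piece_len v hv)

lemma expand_value (φ : ℤ → ℝ) (y : Cell) :
    φ (gad y) = ∑ v ∈ vals, φ v * (if gad y = v then (1 : ℝ) else 0) := by
  simp [gad_mem y]

lemma gad_char_zero (φ : ℤ → ℝ) (S : Finset (Fin 10)) (hS : 5 < S.card) :
    ∑ y : Cell, φ (gad y) * ∏ k ∈ S, sg (y k) = 0 := by
  simp only [expand_value φ, Finset.sum_mul]
  rw [Finset.sum_comm]
  refine Finset.sum_eq_zero fun v hv => ?_
  simp only [mul_assoc, ← Finset.mul_sum]
  rw [value_char_zero v hv S hS, mul_zero]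

lemma gad_lin (φ : ℤ → ℝ) :
    ∑ y : Cell, φ (gad y) * (lin y : ℝ) = ∑ y : Cell, φ (gad y) * (gad y : ℝ) := by
  rw [← sub_eq_zero, ← Finset.sum_sub_distrib]
  simp only [expand_value φ, Finset.sum_mul, ← Finset.sum_sub_distrib]
  rw [Finset.sum_comm]
  refine Finset.sum_eq_zero fun v hv => ?_
  have h : ∀ y : Cell, φ v * (if gad y = v then (1 : ℝ) else 0) * (lin y : ℝ) -
      φ v * (if gad y = v then (1 : ℝ) else 0) * (gad y : ℝ)
      = φ v * ((if gad y = v then lin y - v else 0 : ℤ) : ℝ) := by
    intro y
    split_ifs with h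
    · rw [h]; push_cast; ring
    · simp
  rw [Finset.sum_congr rfl fun y _ => h y, ← Finset.mul_sum]
  have := lin_fiber v hv
  rw [← Int.cast_sum, this]
  simp

variable {m : ℕ}

/-- sum of the gadget values of the blocks -/
def tot (z : Fin m → Cell) : ℤ := ∑ j, gad (z j)

/-- sign with value one at zero -/
def sgnZ (w : ℤ) : ℝ := if 0 ≤ w then 1 else -1

lemma sgnZ_mul (w : ℤ) : sgnZ w * (w : ℝ) = |(w : ℝ)| := by
  unfold sgnZ
  split_ifs with h
  · rw [abs_of_nonneg (by exact_mod_cast h), one_mul]
  · rw [abs_of_neg (by exact_mod_cast not_le.mp h)]; ring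

lemma split_sum (j : Fin m) (F : (Fin m → Cell) → ℝ) :
    ∑ z, F z = ∑ r : {i // i ≠ j} → Cell, ∑ y : Cell, F ((Equiv.funSplitAt j Cell).symm (y, r)) := by
  rw [← (Equiv.funSplitAt j Cell).symm.sum_comp, Fintype.sum_prod_type, Finset.sum_comm]

lemma tot_split (j : Fin m) (y : Cell) (r : {i // i ≠ j} → Cell) :
    tot ((Equiv.funSplitAt j Cell).symm (y, r)) = gad y + ∑ i : {i // i ≠ j}, gad (r i) := by
  unfold tot
  rw [Fintype.sum_eq_add_sum_subtype_ne _ j]
  congr 1
  · simp
  · exact Finset.sum_congr rfl fun i _ => by simp [Equiv.funSplitAt, Equiv.piSplitAt, i.2]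

lemma prod_char_zero (S : Fin m → Finset (Fin 10)) (j : Fin m) (hS : 5 < (S j).card) :
    ∑ z : Fin m → Cell, sgnZ (tot z) * ∏ i, ∏ k ∈ S i, sg (z i k) = 0 := by
  classical
  rw [split_sum j]
  refine Finset.sum_eq_zero fun r _ => ?_
  have h : ∀ y : Cell, sgnZ (tot ((Equiv.funSplitAt j Cell).symm (y, r))) *
      ∏ i, ∏ k ∈ S i, sg ((Equiv.funSplitAt j Cell).symm (y, r) i k)
      = (∏ i : {i // i ≠ j}, ∏ k ∈ S i, sg (r i k)) *
        (sgnZ (gad y + ∑ i : {i // i ≠ j}, gad (r i)) * ∏ k ∈ S j, sg (y k)) := by
    intro y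
    rw [tot_split, Fintype.prod_eq_mul_prod_subtype_ne _ j]
    have h1 : ∀ i : {i // i ≠ j}, (Equiv.funSplitAt j Cell).symm (y, r) i = r i := fun i => by
      simp [Equiv.funSplitAt, Equiv.piSplitAt, i.2]
    simp only [h1]
    simp [Equiv.funSplitAt, Equiv.piSplitAt]
    ring
  rw [Finset.sum_congr rfl fun y _ => h y, ← Finset.mul_sum,
    gad_char_zero (fun v => sgnZ (v + ∑ i : {i // i ≠ j}, gad (r i))) (S j) hS, mul_zero]

lemma lin_sum_eq_abs :
    ∑ z : Fin m → Cell, sgnZ (tot z) * ∑ j, (lin (z j) : ℝ)
      = ∑ z : Fin m → Cell, |(tot z : ℝ)| := by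
  classical
  have hj : ∀ j : Fin m, ∑ z : Fin m → Cell, sgnZ (tot z) * (lin (z j) : ℝ)
      = ∑ z : Fin m → Cell, sgnZ (tot z) * (gad (z j) : ℝ) := by
    intro j
    rw [split_sum j, split_sum j]
    refine Finset.sum_congr rfl fun r _ => ?_
    have h0 : ∀ y, (Equiv.funSplitAt j Cell).symm (y, r) j = y := fun y => by
      simp [Equiv.funSplitAt, Equiv.piSplitAt]
    simp only [h0, tot_split]
    exact gad_lin (fun v => sgnZ (v + ∑ i : {i // i ≠ j}, gad (r i)))
  simp only [Finset.mul_sum]
  rw [Finset.sum_comm, Finset.sum_congr rfl fun j _ => hj j, Finset.sum_comm]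
  refine Finset.sum_congr rfl fun z _ => ?_
  rw [← Finset.mul_sum, ← sgnZ_mul]
  simp [tot]

section limit

/-- uniform measure on a cell -/
noncomputable def unif : Measure Cell := (PMF.uniformOfFintype Cell).toMeasure

instance : IsProbabilityMeasure unif := by unfold unif; infer_instance

lemma unif_real (y : Cell) : unif.real {y} = 1 / 1024 := by
  simp [unif, measureReal_def, PMF.uniformOfFintype_apply, Cell]

lemma integral_unif (g : Cell → ℝ) : ∫ y, g y ∂unif = (∑ y, g y) / 1024 := by
  rw [integral_fintype Integrable.of_finite]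
  simp [unif_real, div_eq_inv_mul, Finset.mul_sum]

/-- normalised gadget value -/
noncomputable def scaled (y : Cell) : ℝ := (gad y : ℝ) / Real.sqrt (11 / 2)

lemma integral_abs_gaussian :
    ∫ x, |x| ∂gaussianReal 0 1 = Real.sqrt (2 / Real.pi) := by
  rw [integral_gaussianReal_eq_integral_smul one_ne_zero]
  have h : ∀ x : ℝ, gaussianPDFReal 0 1 x • |x|
      = (fun u : ℝ => (Real.sqrt (2 * Real.pi))⁻¹ *
          (u ^ (1 : ℝ) * Real.exp (-(1 / 2) * u ^ (2 : ℝ)))) |x| := by
    intro x
    simp only [gaussianPDFReal, NNReal.coe_one, mul_one, sub_zero, smul_eq_mul, Real.rpow_one,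
      Real.rpow_two, sq_abs]
    rw [show -x ^ 2 / 2 = -(1 / 2) * x ^ 2 by ring]
    ring
  simp only [h]
  rw [integral_comp_abs (f := fun u : ℝ => (Real.sqrt (2 * Real.pi))⁻¹ *
    (u ^ (1 : ℝ) * Real.exp (-(1 / 2) * u ^ (2 : ℝ)))), integral_const_mul,
    integral_rpow_mul_exp_neg_mul_rpow two_pos (by norm_num : (-1 : ℝ) < 1) (by norm_num)]
  norm_num
  have h2 : Real.sqrt 2 * Real.sqrt 2 = 2 := Real.mul_self_sqrt zero_le_two
  have h3 : 0 < Real.sqrt Real.pi := Real.sqrt_pos.mpr Real.pi_pos
  field_simp
  linarith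

lemma integrable_abs_gaussian : Integrable (fun x : ℝ => |x|) (gaussianReal 0 1) := by
  have := (memLp_id_gaussianReal (μ := 0) (v := 1) (1 : ℕ)).integrable (by norm_num)
  simpa using this.abs

lemma eventually_abs_ge (ε : ℝ) (hε : 0 < ε) :
    ∀ᶠ m : ℕ in atTop, (Real.sqrt (2 / Real.pi) - ε) * Real.sqrt (11 / 2) * Real.sqrt m
      ≤ (∑ z : Fin m → Cell, |(tot z : ℝ)|) / 1024 ^ m := by
  -- truncate the absolute value
  have hlimK : Tendsto (fun K : ℕ => ∫ x, min |x| (K : ℝ) ∂gaussianReal 0 1) atTop
      (nhds (∫ x, |x| ∂gaussianReal 0 1)) := by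
    refine tendsto_integral_of_dominated_convergence (fun x => |x|)
      (fun K => (by fun_prop : Continuous fun x : ℝ => min |x| (K : ℝ)).aestronglyMeasurable)
      integrable_abs_gaussian (fun K => Eventually.of_forall fun x => ?_)
      (Eventually.of_forall fun x => ?_)
    · rw [Real.norm_eq_abs, abs_of_nonneg (le_min (abs_nonneg x) (Nat.cast_nonneg K))]
      exact min_le_left _ _
    · refine tendsto_const_nhds.congr' ?_
      filter_upwards [eventually_ge_atTop ⌈|x|⌉₊] with K hK
      exact (min_eq_left ((Nat.le_ceil _).trans (Nat.cast_le.mpr hK))).symm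
  rw [integral_abs_gaussian] at hlimK
  obtain ⟨K, hK⟩ := (hlimK.eventually
    (lt_mem_nhds (show Real.sqrt (2 / Real.pi) - ε < _ by linarith))).exists
  let g : BoundedContinuousFunction ℝ ℝ :=
    BoundedContinuousFunction.mkOfBound ⟨fun x => min |x| (K : ℝ), by fun_prop⟩ K (fun x y => by
      have h1 := le_min (abs_nonneg x) (Nat.cast_nonneg (α := ℝ) K)
      have h2 := le_min (abs_nonneg y) (Nat.cast_nonneg (α := ℝ) K)
      have h3 := min_le_right |x| (K : ℝ)
      have h4 := min_le_right |y| (K : ℝ)
      simp only [ContinuousMap.coe_mk, Real.dist_eq, abs_le]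
      constructor <;> linarith)
  let P : Measure (ℕ → Cell) := Measure.infinitePi fun _ => unif
  let X : ℕ → (ℕ → Cell) → ℝ := fun i ω => scaled (ω i)
  have hmeas : Measurable scaled := measurable_of_countable _
  have hindep : iIndepFun X P :=
    iIndepFun_infinitePi (X := fun _ y => scaled y) fun _ => hmeas
  have hmap : ∀ i : ℕ, P.map (fun ω => ω i) = unif := fun i =>
    Measure.infinitePi_map_eval (fun _ : ℕ => unif) i
  have hident : ∀ i, IdentDistrib (X i) (X 0) P P := fun i => by
    have : IdentDistrib (fun ω : ℕ → Cell => ω i) (fun ω : ℕ → Cell => ω 0) P P :=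
      ⟨(measurable_pi_apply i).aemeasurable, (measurable_pi_apply 0).aemeasurable,
        by rw [hmap, hmap]⟩
    exact this.comp hmeas
  have hint : ∀ φ : Cell → ℝ, ∫ ω, φ (ω 0) ∂P = (∑ y, φ y) / 1024 := by
    intro φ
    rw [← integral_unif, ← hmap 0, integral_map (measurable_pi_apply 0).aemeasurable
      (measurable_of_countable φ).aestronglyMeasurable]
  have h0 : P[X 0] = 0 := by
    rw [hint scaled]
    simp only [scaled, ← Finset.sum_div]
    rw [← Int.cast_sum, gad_sum]
    simp
  have h1 : P[X 0 ^ 2] = 1 := by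
    have := hint (fun y => scaled y ^ 2)
    simp only [X, Pi.pow_apply] at this ⊢
    rw [this]
    simp only [scaled, div_pow, ← Finset.sum_div, Real.sq_sqrt (show (0:ℝ) ≤ 11 / 2 by norm_num)]
    have h := congrArg (fun z : ℤ => (z : ℝ)) gad_sq
    push_cast at h
    rw [h]; norm_num
  have hclt := tendstoInDistribution_inv_sqrt_mul_sum (P := P) (P' := gaussianReal 0 1) (X := X)
    (Y := fun x : ℝ => x) HasLaw.id h0 h1 hindep hident
  have hlim := (ProbabilityMeasure.tendsto_iff_forall_integral_tendsto.mp hclt.tendsto) g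
  simp only [ProbabilityMeasure.coe_mk, Measure.map_id'] at hlim
  have hgK : Real.sqrt (2 / Real.pi) - ε < ∫ x, g x ∂gaussianReal 0 1 := hK
  filter_upwards [hlim.eventually (lt_mem_nhds hgK), eventually_ge_atTop 1] with m hm hm1
  rw [integral_map (hclt.forall_aemeasurable m) g.continuous.aestronglyMeasurable] at hm
  -- pass to the finite product
  have hfin : P.map (fun ω (j : Fin m) => ω (j : ℕ)) = Measure.pi fun _ : Fin m => unif := by
    have h2 : iIndepFun (fun (j : Fin m) (ω : ℕ → Cell) => ω (j : ℕ)) P :=
      (iIndepFun_infinitePi (P := fun _ : ℕ => unif) (X := fun _ y => y)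
        fun _ => measurable_id).precomp Fin.val_injective
    rw [(iIndepFun_iff_map_fun_eq_pi_map fun j => (measurable_pi_apply _).aemeasurable).mp h2]
    simp only [hmap]
  have hval : ∀ ω : ℕ → Cell, (Real.sqrt m)⁻¹ * ∑ i ∈ Finset.range m, X i ω
      = (tot (fun j : Fin m => ω (j : ℕ)) : ℝ) / (Real.sqrt (11 / 2) * Real.sqrt m) := by
    intro ω
    rw [← Fin.sum_univ_eq_sum_range (fun i => X i ω) m]
    simp only [X, scaled, tot, ← Finset.sum_div, Int.cast_sum]
    rw [← div_eq_inv_mul, div_div]
  simp only [hval] at hm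
  have hs : 0 < Real.sqrt (11 / 2) * Real.sqrt m :=
    mul_pos (Real.sqrt_pos.mpr (by norm_num)) (Real.sqrt_pos.mpr (by exact_mod_cast hm1))
  have hpi : ∫ z, g ((tot z : ℝ) / (Real.sqrt (11 / 2) * Real.sqrt m))
      ∂(Measure.pi fun _ : Fin m => unif)
      ≤ (∑ z : Fin m → Cell, |(tot z : ℝ)|) / 1024 ^ m / (Real.sqrt (11 / 2) * Real.sqrt m) := by
    rw [integral_fintype Integrable.of_finite, Finset.sum_div, Finset.sum_div]
    refine Finset.sum_le_sum fun z _ => ?_
    have hz : (Measure.pi fun _ : Fin m => unif).real {z} = 1 / 1024 ^ m := by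
      rw [measureReal_def, Measure.pi_singleton, ENNReal.toReal_prod]
      simp only [← measureReal_def, unif_real, Finset.prod_const, Finset.card_univ,
        Fintype.card_fin, div_pow, one_pow]
    rw [hz, smul_eq_mul, show |(tot z : ℝ)| / 1024 ^ m / (Real.sqrt (11 / 2) * Real.sqrt m)
      = 1 / 1024 ^ m * (|(tot z : ℝ)| / (Real.sqrt (11 / 2) * Real.sqrt m)) by ring]
    refine mul_le_mul_of_nonneg_left ?_ (by positivity)
    refine (min_le_left _ _).trans ?_
    rw [abs_div, abs_of_pos hs]
  rw [← hfin, integral_map (measurable_pi_lambda _ fun j => measurable_pi_apply _).aemeasurable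
    (measurable_of_countable _).aestronglyMeasurable] at hpi
  have := (le_div_iff₀ hs).mp (hm.le.trans hpi)
  linarith

end limit

theorem lower_bound (ε : ℝ) (hε : 0 < ε) :
    ∃ d₀ : ℕ, ∀ d ≥ d₀, ∃ (n : ℕ) (f : (Fin n → Bool) → ℝ),
      (∀ x, f x = 1 ∨ f x = -1) ∧
      (∀ S : Finset (Fin n), d < S.card →
        (∑ x : Fin n → Bool, f x * ∏ i ∈ S, sg (x i)) / 2 ^ n = 0) ∧
      (Real.sqrt (11 / (5 * Real.pi)) - ε) * Real.sqrt d
        ≤ ∑ i : Fin n, (∑ x : Fin n → Bool, f x * sg (x i)) / 2 ^ n := by
  classical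
  -- choose the slack
  set c := Real.sqrt (11 / (5 * Real.pi)) with hc
  obtain ⟨δ, hδ0, hδ⟩ : ∃ δ : ℝ, 0 < δ ∧ δ * Real.sqrt (11 / 10) ≤ ε / 2 :=
    ⟨ε / 2 / Real.sqrt (11 / 10), by positivity, le_of_eq (by field_simp)⟩
  obtain ⟨m₀, hm₀⟩ := eventually_atTop.mp (eventually_abs_ge δ hδ0)
  obtain ⟨D, hD⟩ := exists_nat_ge ((4 * c / ε) * (4 * c / ε) * 4 + 5 * m₀ + 5)
  refine ⟨D, fun d hd => ?_⟩
  set m := d / 5
  have hdD : (D : ℝ) ≤ d := by exact_mod_cast hd
  have hm : m₀ ≤ m := by
    have : ((5 * m₀ + 5 : ℕ) : ℝ) ≤ d := by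
      push_cast; nlinarith [mul_self_nonneg (4 * c / ε)]
    have : 5 * m₀ + 5 ≤ d := by exact_mod_cast this
    omega
  let e : (Fin (m * 10) → Bool) ≃ (Fin m → Cell) :=
    (Equiv.arrowCongr finProdFinEquiv.symm (Equiv.refl Bool)).trans (Equiv.curry _ _ _)
  have he : ∀ x j k, e x j k = x (finProdFinEquiv (j, k)) := fun _ _ _ => rfl
  refine ⟨m * 10, fun x => sgnZ (tot (e x)), fun x => ?_, fun S hS => ?_, ?_⟩
  · show sgnZ (tot (e x)) = 1 ∨ sgnZ (tot (e x)) = -1
    unfold sgnZ; split_ifs <;> simp
  · let T : Fin m → Finset (Fin 10) := fun j => univ.filter fun k => finProdFinEquiv (j, k) ∈ S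
    have hprod : ∀ x : Fin (m * 10) → Bool, ∏ i ∈ S, sg (x i) = ∏ j, ∏ k ∈ T j, sg (e x j k) := by
      intro x
      simp only [T, Finset.prod_filter, he]
      rw [← Fintype.prod_prod_type' (f := fun j k =>
        if finProdFinEquiv (j, k) ∈ S then sg (x (finProdFinEquiv (j, k))) else 1)]
      rw [finProdFinEquiv.prod_comp (fun i => if i ∈ S then sg (x i) else 1)]
      simp
    have hcard : S.card = ∑ j, (T j).card := by
      simp only [T, Finset.card_filter]
      rw [← Fintype.sum_prod_type' (f := fun j k =>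
        if finProdFinEquiv (j, k) ∈ S then 1 else 0)]
      rw [finProdFinEquiv.sum_comp (fun i => if i ∈ S then 1 else 0)]
      simp
    obtain ⟨j, hj⟩ : ∃ j, 5 < (T j).card := by
      by_contra h
      push Not at h
      have := Finset.sum_le_sum (s := (univ : Finset (Fin m))) fun j _ => h j
      simp at this
      omega
    simp only [hprod]
    rw [e.sum_comp (fun z => sgnZ (tot z) * ∏ i, ∏ k ∈ T i, sg (z i k)),
      prod_char_zero T j hj]
    simp
  · rw [← Finset.sum_div, Finset.sum_comm]
    simp only [← Finset.mul_sum]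
    have hlin : ∀ x : Fin (m * 10) → Bool, ∑ i, sg (x i) = ∑ j, (lin (e x j) : ℝ) := by
      intro x
      rw [← finProdFinEquiv.sum_comp (fun i => sg (x i)), Fintype.sum_prod_type]
      refine Finset.sum_congr rfl fun j _ => ?_
      simp only [lin, Int.cast_sum]
      refine Finset.sum_congr rfl fun k _ => ?_
      rw [he]
      cases x (finProdFinEquiv (j, k)) <;> simp [sg]
    simp only [hlin]
    rw [e.sum_comp (fun z => sgnZ (tot z) * ∑ j, (lin (z j) : ℝ)), lin_sum_eq_abs,
      show (2 : ℝ) ^ (m * 10) = 1024 ^ m by rw [mul_comm, pow_mul]; norm_num]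
    refine le_trans ?_ (hm₀ m hm)
    have hconst : Real.sqrt (11 / 2) = Real.sqrt 5 * Real.sqrt (11 / 10) := by
      rw [← Real.sqrt_mul (by norm_num)]; norm_num
    have hc2 : c = Real.sqrt (2 / Real.pi) * Real.sqrt (11 / 10) := by
      rw [hc, ← Real.sqrt_mul (by positivity)]
      congr 1
      field_simp; ring
    rw [hconst, show (Real.sqrt (2 / Real.pi) - δ) * (Real.sqrt 5 * Real.sqrt (11 / 10)) *
      Real.sqrt m = (c - δ * Real.sqrt (11 / 10)) * (Real.sqrt 5 * Real.sqrt m) by rw [hc2]; ring]
    rw [← Real.sqrt_mul (show (0:ℝ) ≤ 5 by norm_num) (m : ℝ)]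
    set a := Real.sqrt (5 * m)
    set b := Real.sqrt d
    have ha0 : 0 ≤ a := Real.sqrt_nonneg _
    have hc0 : 0 ≤ c := Real.sqrt_nonneg _
    have hab : a ≤ b := Real.sqrt_le_sqrt (by exact_mod_cast (show 5 * m ≤ d by omega))
    have hba : b - a ≤ 3 := by
      have h1 : b ^ 2 = d := Real.sq_sqrt (Nat.cast_nonneg d)
      have h2 : a ^ 2 = 5 * m := Real.sq_sqrt (by positivity)
      have h3 : (d : ℝ) ≤ 5 * m + 4 := by exact_mod_cast (show d ≤ 5 * m + 4 by omega)
      nlinarith
    have hb : 8 * c / ε ≤ b := by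
      apply Real.le_sqrt_of_sq_le
      have : (8 * c / ε) ^ 2 = (4 * c / ε) * (4 * c / ε) * 4 := by ring
      rw [this]
      have : (0:ℝ) ≤ 5 * m₀ + 5 := by positivity
      linarith
    rw [div_le_iff₀ hε] at hb
    nlinarith [mul_le_mul_of_nonneg_right hδ ha0, mul_le_mul_of_nonneg_left hba hc0,
      mul_le_mul_of_nonneg_left hab hε.le]

end Vale.Agent.P047.LowerBound
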